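import Vale.Agent.P281.H64.TU.Spec
import Vale.Agent.P281.H64.TK.SpecG

/-!
# P281, project T-L (helper969): logarithmic Gauss maps, statements of the blocks (FROZEN)

`X` compact Kähler, `f : X → Y`; `𝒟` a finite set of prime divisors of `X` (coefficient `1` in `Δ`).
The fibres of `f` have nonconstant units: invertible functions `U` on `f⁻¹(y) ∖ 𝒟`, with divisors
`∑ a D D`, `a : Set X → ℤ` independent of `y`. The forms are the products `dlog U_1 ∧ ⋯ ∧ dlog U_d`,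
sections of `K + 𝒟` on the fibres. They are bounded on tame slices which avoid `𝒟`, by the energy of
`log |U|`.
-/

open Set Filter Metric MeasureTheory Vale.Agent.P281 Vale.Agent.P281.H713 Vale.Agent.P272.K
open Vale.Agent.P281.MF Vale.Agent.P281.ISO Vale.Agent.P281.H713.TZ
open Vale.Agent.P281.H64.Thin (IsThinSet)
open Vale.Agent.P281.H64.Gen (IsSmallSet NoExc)
open Vale.Agent.P281.H64.TU (Tame KTame TameIn HasFormsT)

open scoped Topology ContDiff Manifold ComplexConjugate ComplexOrder ENNReal NNReal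

noncomputable section

namespace Vale.Agent.P281.H969.TL

/-! ### Units -/

section
variable (E : Type) [NormedAddCommGroup E] [NormedSpace ℂ E] {X Y : Type} [TopologicalSpace X]
  [ChartedSpace E X] [TopologicalSpace Y]

/-- `U` is, on the fibre of `f` over `y`, a meromorphic function with divisor `∑ a D D`. -/
def IsUnitAt (f : X → Y) (𝒟 : Finset (Set X)) (a : Set X → ℤ) (y : Y) (U : X → ℂ) : Prop :=
  ∀ x, f x = y → ∀ e : Set X → X → ℂ, (∀ D ∈ 𝒟, J.IsLocalEq E D (e D) x) →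
    ∃ h : X → ℂ, HolV E h x ∧ h x ≠ 0 ∧
      ∀ᶠ z in 𝓝 x, f z = y → (∀ D ∈ 𝒟, z ∉ D) → U z = h z * ∏ D ∈ 𝒟, e D z ^ a D

/-- `U` is, on `f⁻¹(W)`, a meromorphic function with divisor `∑ a D D`. -/
def IsUnitOn (f : X → Y) (𝒟 : Finset (Set X)) (a : Set X → ℤ) (W : Set Y) (U : X → ℂ) : Prop :=
  ∀ x, f x ∈ W → ∀ e : Set X → X → ℂ, (∀ D ∈ 𝒟, J.IsLocalEq E D (e D) x) →
    ∃ h : X → ℂ, HolV E h x ∧ h x ≠ 0 ∧
      ∀ᶠ z in 𝓝 x, (∀ D ∈ 𝒟, z ∉ D) → U z = h z * ∏ D ∈ 𝒟, e D z ^ a D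

end

/-! ### B1, B2: the metrics of `O(D)`; the volume of the fibres -/

/-- `N` is the square of the norm of the canonical section of `O(D)` for a smooth metric, with
curvature bounded by `C w`. -/
structure IsNrm {n : ℕ} {X : Type} [TopologicalSpace X] [ChartedSpace (Cm n) X]
    (w : Chart n X → Cm n → Matrix (Fin n) (Fin n) ℂ) (D : Set X) (C : ℝ) (N : X → ℝ) : Prop where
  nonneg : ∀ x, 0 ≤ N x
  zero : ∀ x, N x = 0 ↔ x ∈ D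
  loc : ∀ x, ∀ g : X → ℂ, J.IsLocalEq (Cm n) D g x → ∀ e : Chart n X, At e x →
    ∃ φ : Cm n → ℝ, ContDiffAt ℝ ∞ φ (e x) ∧
      (∀ᶠ v in 𝓝 (e x), N (e.symm v) = ‖g (e.symm v)‖ ^ 2 * Real.exp (φ v)) ∧
      ∀ ξ : Cm n, |(∑ j, ∑ k, cHess φ (e x) j k * ξ j * conj (ξ k)).re| ≤
        C * (∑ j, ∑ k, w e (e x) j k * ξ j * conj (ξ k)).re

/-- **B1** (`N = ∏_k |g_k|^(2 ρ_k)`, `ρ_k` a smooth partition of unity; `C` by compactness). -/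
def NrmStmt : Prop :=
  ∀ (n : ℕ) (X : Type) [TopologicalSpace X] [T2Space X] [CompactSpace X] [ChartedSpace (Cm n) X]
    [IsManifold 𝓘(ℂ, Cm n) ω X] (w : Chart n X → Cm n → Matrix (Fin n) (Fin n) ℂ) (D : Set X),
    IsHermitian w → J.IsPrime (Cm n) D → ∃ (C : ℝ) (N : X → ℝ), IsNrm w D C N

/-- The volume of the compact manifold `E / Γ`. -/
def volS {d : ℕ} {E Γ : Type} [TopologicalSpace E] [Group Γ] [MulAction Γ E] (S : H64.TK.Sheets d E Γ)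
    (w : Fin S.N → Cm d → Matrix (Fin d) (Fin d) ℂ) : ℝ :=
  ∑ i, ∫ z in S.P i, (w i z).det.re

/-- **B2a**: the volume is constant in a family with Kähler total space. (Port of `H511/TK/Flat`, or
`FlatStmt` for the product of the family with an elliptic curve, `u = Re z`, `u' = Im z`.) -/
def VolFStmt : Prop :=
  ∀ (p d : ℕ) (E Γ : Type) [TopologicalSpace E] [T2Space E] [SimplyConnectedSpace E] [Group Γ]
    [MulAction Γ E] [ContinuousConstSMul Γ E] (𝓕 : H64.TK.Fam p d E Γ)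
    (W : Fin 𝓕.N → Cm p × Cm d → Matrix (Fin p ⊕ Fin d) (Fin p ⊕ Fin d) ℂ), 0 < d →
    H64.TK.KFam 𝓕 W → ∀ (t : Cm p) (ht : t ∈ 𝓕.T) (t' : Cm p) (ht' : t' ∈ 𝓕.T),
      volS (𝓕.at t ht) (H64.TK.fibW W t) = volS (𝓕.at t' ht') (H64.TK.fibW W t')

/-- **B2b**: the volume does not depend on the sheets (as `E1Concl.inv`). -/
def VolSStmt : Prop :=
  ∀ (d : ℕ) (E Γ : Type) [TopologicalSpace E] [T2Space E] [SimplyConnectedSpace E] [Group Γ]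
    [MulAction Γ E] [ContinuousConstSMul Γ E] (S S' : H64.TK.Sheets d E Γ)
    (w : Fin S.N → Cm d → Matrix (Fin d) (Fin d) ℂ)
    (w' : Fin S'.N → Cm d → Matrix (Fin d) (Fin d) ℂ), 0 < d → H64.TK.Kah S w → H64.TK.Kah S' w' →
    H64.TK.HolCompat S S' → H64.TK.SameMetric S S' w w' → volS S' w' = volS S w

/-- **B2**: the fibres over `Y ∖ S` have the same volume (`ABStmt`, `WStmt`, `KStmt`, B2a, B2b). -/
def VolStmt : Prop :=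
  ∀ (p d : ℕ) (Z Y : Type) [TopologicalSpace Z] [T2Space Z] [ChartedSpace (Cm (p + d)) Z]
    [IsManifold 𝓘(ℂ, Cm (p + d)) ω Z] [TopologicalSpace Y] [T2Space Y] [ChartedSpace (Cm p) Y]
    [IsManifold 𝓘(ℂ, Cm p) ω Y] (f : Z → Y) (S : Set Y)
    (w : Chart (p + d) Z → Cm (p + d) → Matrix (Fin (p + d)) (Fin (p + d)) ℂ), 0 < d →
    ContMDiff 𝓘(ℂ, Cm (p + d)) 𝓘(ℂ, Cm p) ω f → IsClosed S →
    H64.IsProperFibration (n := p + d) (p := p) f S → IsPreconnected Sᶜ → IsKahler w →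
    ∃ v : ℝ, ∀ (E Γ : Type) [TopologicalSpace E] [T2Space E] [SimplyConnectedSpace E] [Group Γ]
      [MulAction Γ E] [ContinuousConstSMul Γ E] (𝓕 : H64.TK.Fam p d E Γ) (q : Cm p → E → Z)
      (χ : OpenPartialHomeomorph Y (Cm p))
      (W : Fin 𝓕.N → Cm p × Cm d → Matrix (Fin p ⊕ Fin d) (Fin p ⊕ Fin d) ℂ),
      H64.TK.Model (n := p + d) f 𝓕 χ q → H64.TK.IsPull w 𝓕 q W → ∀ (t : Cm p) (ht : t ∈ 𝓕.T),
      χ.symm t ∉ S → volS (𝓕.at t ht) (H64.TK.fibW W t) = v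

/-! ### B3: the energy of `log |u|` on a compact Kähler manifold -/

/-- `A = |u|² M` off the closed set `Z`; `A`, `M` are smooth functions on `E / Γ`; `u` is holomorphic
and invertible off `Z`, and the curvature `-i∂∂̄ log M` is at most `C w`. -/
structure IsPair {d : ℕ} {E Γ : Type} [TopologicalSpace E] [Group Γ] [MulAction Γ E]
    (S : H64.TK.Sheets d E Γ) (w : Fin S.N → Cm d → Matrix (Fin d) (Fin d) ℂ) (C : ℝ) (Z : Set E)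
    (u : E → ℂ) (A M : E → ℝ) : Prop where
  inv : ∀ (γ : Γ) (e : E), u (γ • e) = u e ∧ A (γ • e) = A e ∧ M (γ • e) = M e ∧
    (γ • e ∈ Z ↔ e ∈ Z)
  nonneg : ∀ e, 0 ≤ A e ∧ 0 ≤ M e
  smooth : ∀ i, ContDiffOn ℝ ∞ (fun z => A (S.σ i z)) (ball 0 3) ∧
    ContDiffOn ℝ ∞ (fun z => M (S.σ i z)) (ball 0 3)
  isOpen : ∀ i, ∀ z ∈ ball (0 : Cm d) 3, S.σ i z ∉ Z → ∀ᶠ z' in 𝓝 z, S.σ i z' ∉ Z
  dense : ∀ i, ∀ z ∈ ball (0 : Cm d) 3, ∃ᶠ z' in 𝓝 z, S.σ i z' ∉ Z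
  hol : ∀ i, ∀ z ∈ ball (0 : Cm d) 3, S.σ i z ∉ Z →
    AnalyticAt ℂ (fun z => u (S.σ i z)) z ∧ u (S.σ i z) ≠ 0
  eq : ∀ e, e ∉ Z → 0 < M e ∧ A e = ‖u e‖ ^ 2 * M e
  curv : ∀ i, ∀ z ∈ ball (0 : Cm d) 3, S.σ i z ∉ Z → ∀ ξ : Cm d,
    -(C * (∑ j, ∑ k, w i z j k * ξ j * conj (ξ k)).re) ≤
      (∑ j, ∑ k, cHess (fun z => Real.log (M (S.σ i z))) z j k * ξ j * conj (ξ k)).re

/-- The density of `(const) (s² |u|² / (|u|² + s²)²) i dlog u ∧ dlog ū ∧ w^(d-1)`. -/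
def enD {d : ℕ} (w : Matrix (Fin d) (Fin d) ℂ) (u : Cm d → ℂ) (s : ℝ) (z : Cm d) : ℝ :=
  s ^ 2 * ‖u z‖ ^ 2 / (‖u z‖ ^ 2 + s ^ 2) ^ 2 *
    (w.det * (w⁻¹ * Matrix.of fun j k => H64.TK.dd j u z / u z * conj (H64.TK.dd k u z / u z)).trace).re

/-- **B3** (energy): Green for `log (A + s² M + ε)`, then `ε → 0` (Fatou). -/
def EnStmt : Prop :=
  ∀ (d : ℕ) (E Γ : Type) [TopologicalSpace E] [T2Space E] [SimplyConnectedSpace E] [Group Γ]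
    [MulAction Γ E] [ContinuousConstSMul Γ E] (S : H64.TK.Sheets d E Γ)
    (w : Fin S.N → Cm d → Matrix (Fin d) (Fin d) ℂ) (C : ℝ) (Z : Set E) (u : E → ℂ) (A M : E → ℝ),
    0 < d → 0 ≤ C → H64.TK.Kah S w → IsPair S w C Z u A M → ∀ s : ℝ, 0 < s →
    ∑ i, ∫⁻ z in S.P i ∩ {z | S.σ i z ∉ Z},
      ENNReal.ofReal (enD (w i z) (fun z => u (S.σ i z)) s z) ≤
      ENNReal.ofReal (d * C * volS S w)

/-- **B3a**: Green's formula: `∫ Δ L = 0`. (`H125/KH/Glob: ibp_mv` with `f = 1`, `triv`, `MkCoc`,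
`MkKM`; or directly with `H511/TK/{Part,Loc}`.) -/
def GreenStmt : Prop :=
  ∀ (d : ℕ) (E Γ : Type) [TopologicalSpace E] [T2Space E] [SimplyConnectedSpace E] [Group Γ]
    [MulAction Γ E] [ContinuousConstSMul Γ E] (S : H64.TK.Sheets d E Γ)
    (w : Fin S.N → Cm d → Matrix (Fin d) (Fin d) ℂ) (L : E → ℝ), 0 < d → H64.TK.Kah S w →
    (∀ (γ : Γ) (e : E), L (γ • e) = L e) →
    (∀ i, ContDiffOn ℝ ∞ (fun z => L (S.σ i z)) (ball 0 3)) →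
    ∑ i, ∫ z in S.P i, ((w i z).det * ((w i z)⁻¹ * cHess (fun z => L (S.σ i z)) z).trace).re = 0

/-- **B3b** (pointwise): the complex Hessian of `log (|u|² m + s² m + ε)`. -/
def HessStmt : Prop :=
  ∀ (d : ℕ) (u : Cm d → ℂ) (m : Cm d → ℝ) (z : Cm d) (s ε : ℝ) (ξ : Cm d), 0 < s → 0 < ε →
    AnalyticAt ℂ u z → u z ≠ 0 → ContDiffAt ℝ ∞ m z → 0 < m z → ∃ c : ℝ, 0 ≤ c ∧ c ≤ 1 ∧
      c * (∑ j, ∑ k, cHess (fun z => Real.log (m z)) z j k * ξ j * conj (ξ k)).re +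
        ‖u z‖ ^ 2 * m z * (s ^ 2 * m z) / (‖u z‖ ^ 2 * m z + s ^ 2 * m z + ε) ^ 2 *
          ‖fderiv ℂ u z ξ / u z‖ ^ 2 ≤
      (∑ j, ∑ k, cHess (fun z => Real.log (‖u z‖ ^ 2 * m z + s ^ 2 * m z + ε)) z j k *
        ξ j * conj (ξ k)).re

/-! ### B4: slices -/

/-- **B4** (helper165, `H165/L/Slice.lean`). -/
def SliceStmt : Prop :=
  ∀ (d : ℕ) {r : ℝ}, 0 < r → ∃ C : ℝ, 0 ≤ C ∧ ∀ (g : Cm d → ℂ) (v₀ : Cm d) (K : ℝ), 0 ≤ K →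
    DifferentiableOn ℂ g (ball v₀ r) →
    ∫⁻ v in ball v₀ r, ENNReal.ofReal (‖fderiv ℂ g v‖ ^ 2 / Real.cosh ((g v - g v₀).re) ^ 2) ≤
      ENNReal.ofReal K → ‖fderiv ℂ g v₀‖ ≤ C * (K + 1)

/-- **B34** (from B3, B4; `H485/U/Grad.lean`: `lint_poly_le`, `hd_ge`): the logarithmic derivative of
`u` on tame slices off `Z`. -/
def SheetBoundStmt : Prop :=
  ∀ (d : ℕ) (r K C v : ℝ), 0 < d → 0 < r → 0 < K → 0 ≤ C → ∃ B : ℝ, ∀ (E Γ : Type) [TopologicalSpace E]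
    [T2Space E] [SimplyConnectedSpace E] [Group Γ] [MulAction Γ E] [ContinuousConstSMul Γ E]
    (S : H64.TK.Sheets d E Γ) (w : Fin S.N → Cm d → Matrix (Fin d) (Fin d) ℂ) (Z : Set E) (u : E → ℂ)
    (A M : E → ℝ), H64.TK.Kah S w → IsPair S w C Z u A M → volS S w ≤ v → ∀ (q : Cm d → E) (v₀ : Cm d), H64.TK.PolyIn S q v₀ r → TameIn S w K q v₀ r →
    (∀ v ∈ ball v₀ r, q v ∉ Z) →
    ‖fderiv ℂ (fun v => u (q v)) v₀‖ ≤ B * ‖u (q v₀)‖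

/-- **B5** (assembly of B1, B2, B34 with the models): the logarithmic derivatives of the units are
bounded on the tame slices which avoid `𝒟`, uniformly over `Y ∖ S`. -/
def BoundStmt : Prop :=
  ∀ (p d : ℕ) (X Y : Type) [TopologicalSpace X] [T2Space X] [CompactSpace X] [ConnectedSpace X]
    [ChartedSpace (Cm (p + d)) X] [IsManifold 𝓘(ℂ, Cm (p + d)) ω X] [TopologicalSpace Y]
    [T2Space Y] [ChartedSpace (Cm p) Y] [IsManifold 𝓘(ℂ, Cm p) ω Y] (f : X → Y) (S : Set Y)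
    (w : Chart (p + d) X → Cm (p + d) → Matrix (Fin (p + d)) (Fin (p + d)) ℂ)
    (𝒟 : Finset (Set X)) (a : Set X → ℤ), 0 < d →
    ContMDiff 𝓘(ℂ, Cm (p + d)) 𝓘(ℂ, Cm p) ω f → IsClosed S →
    H64.IsProperFibration (n := p + d) (p := p) f S → IsPreconnected Sᶜ → IsKahler w →
    (∀ D ∈ 𝒟, J.IsPrime (Cm (p + d)) D) → (∀ D ∈ 𝒟, ∀ y ∉ S, ¬ f ⁻¹' {y} ⊆ D) →
    ∀ r K : ℝ, 0 < r → 0 < K → ∃ B : ℝ, ∀ (y : Y) (U : X → ℂ), y ∉ S →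
      IsUnitAt (Cm (p + d)) f 𝒟 a y U → ∀ (q : Cm d → X) (v₀ : Cm d),
      IsPolydisc (Cm (p + d)) f q v₀ r → KTame w K q v₀ r → f (q v₀) = y →
      (∀ v ∈ ball v₀ r, ∀ D ∈ 𝒟, q v ∉ D) →
      ‖fderiv ℂ (fun v => U (q v)) v₀‖ ≤ B * ‖U (q v₀)‖

/-! ### B6: families of units -/

/-- **B6a** (Harnack): near every point `y₀` of `Y ∖ S`, the oscillation of
`log (|U|² ∏ N_D^(-a D))` on the fibres is bounded. Stated with local equations: for any two points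
`x, x'` of the fibre over `y₀` and local equations `e`, `e'` there, the quotient of `U / ∏ e^a` at `z`
and `U / ∏ e'^a` at `z'` is bounded, for `z` near `x`, `z'` near `x'`, on the same fibre. -/
def HarStmt : Prop :=
  ∀ (p d : ℕ) (X Y : Type) [TopologicalSpace X] [T2Space X] [CompactSpace X]
    [ChartedSpace (Cm (p + d)) X] [IsManifold 𝓘(ℂ, Cm (p + d)) ω X] [TopologicalSpace Y]
    [T2Space Y] [ChartedSpace (Cm p) Y] [IsManifold 𝓘(ℂ, Cm p) ω Y] (f : X → Y) (S : Set Y)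
    (w : Chart (p + d) X → Cm (p + d) → Matrix (Fin (p + d)) (Fin (p + d)) ℂ)
    (𝒟 : Finset (Set X)) (a : Set X → ℤ), 0 < d → IsHermitian w →
    ContMDiff 𝓘(ℂ, Cm (p + d)) 𝓘(ℂ, Cm p) ω f → IsClosed S →
    H64.IsProperFibration (n := p + d) (p := p) f S →
    (∀ D ∈ 𝒟, J.IsPrime (Cm (p + d)) D) → (∀ D ∈ 𝒟, ∀ y ∉ S, ¬ f ⁻¹' {y} ⊆ D) →
    ∀ y₀ ∉ S, ∀ x x' : X, f x = y₀ → f x' = y₀ → ∀ e e' : Set X → X → ℂ,
    (∀ D ∈ 𝒟, J.IsLocalEq (Cm (p + d)) D (e D) x) →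
    (∀ D ∈ 𝒟, J.IsLocalEq (Cm (p + d)) D (e' D) x') → ∃ C : ℝ, ∃ V ∈ 𝓝 x, ∃ V' ∈ 𝓝 x',
    ∀ (y : Y) (U : X → ℂ), IsUnitAt (Cm (p + d)) f 𝒟 a y U → ∀ z ∈ V, ∀ z' ∈ V', f z = y →
      f z' = y → (∀ D ∈ 𝒟, z ∉ D) → (∀ D ∈ 𝒟, z' ∉ D) →
      ‖U z * ∏ D ∈ 𝒟, e D z ^ (-a D)‖ ≤ C * ‖U z' * ∏ D ∈ 𝒟, e' D z' ^ (-a D)‖

/-- **B6**: if the fibres over a dense subset have units with divisor `∑ a D D`, then so have, locally
over `Y ∖ S`, the families. (B6a; Montel: all the fibres have units, normalised on a local section,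
continuous in `y`; difference quotients and compactness of the fibres: holomorphic in `y`.) -/
def FamUStmt : Prop :=
  ∀ (p d : ℕ) (X Y : Type) [TopologicalSpace X] [T2Space X] [CompactSpace X]
    [ChartedSpace (Cm (p + d)) X] [IsManifold 𝓘(ℂ, Cm (p + d)) ω X] [TopologicalSpace Y]
    [T2Space Y] [ChartedSpace (Cm p) Y] [IsManifold 𝓘(ℂ, Cm p) ω Y] (f : X → Y) (S : Set Y)
    (w : Chart (p + d) X → Cm (p + d) → Matrix (Fin (p + d)) (Fin (p + d)) ℂ)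
    (𝒟 : Finset (Set X)) (a : Set X → ℤ), 0 < d → IsHermitian w →
    ContMDiff 𝓘(ℂ, Cm (p + d)) 𝓘(ℂ, Cm p) ω f → IsClosed S →
    H64.IsProperFibration (n := p + d) (p := p) f S →
    (∀ D ∈ 𝒟, J.IsPrime (Cm (p + d)) D) → (∀ D ∈ 𝒟, ∀ y ∉ S, ¬ f ⁻¹' {y} ⊆ D) →
    (∀ y ∉ S, ∃ᶠ y' in 𝓝 y, ∃ U, IsUnitAt (Cm (p + d)) f 𝒟 a y' U) →
    ∀ y₀ ∉ S, ∃ (W : Set Y) (U : X → ℂ), IsOpen W ∧ y₀ ∈ W ∧
      IsUnitOn (Cm (p + d)) f 𝒟 a W U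

/-! ### B7: the forms -/

section
variable {n d : ℕ} {X Y : Type} [TopologicalSpace X] [ChartedSpace (Cm n) X]
  [TopologicalSpace Y]

/-- The coefficient of `dlog u_1 ∧ ⋯ ∧ dlog u_d`. -/
def lcoef {d : ℕ} (u : Fin d → Cm d → ℂ) (v : Cm d) : ℂ :=
  (Matrix.of fun b c => fderiv ℂ (u b) v (Pi.single c 1) / u b v).det

/-- The rank of the map given by the forms `dlog U_{s 1} ∧ ⋯ ∧ dlog U_{s d}`, `s : Fin (r + 1)`, of the
fibre over `y` is at least `r` at some point. -/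
def LRankAt (d : ℕ) (f : X → Y) (𝒟 : Finset (Set X)) {r : ℕ}
    (a : Fin (r + 1) → Fin d → Set X → ℤ) (y : Y) : Prop :=
  ∃ U : Fin (r + 1) → Fin d → X → ℂ, (∀ s b, IsUnitAt (Cm n) f 𝒟 (a s b) y (U s b)) ∧
    ∃ (q : Cm d → X) (v₀ : Cm d), ContMDiffAt 𝓘(ℂ, Cm d) 𝓘(ℂ, Cm n) ω q v₀ ∧
      (∀ᶠ v in 𝓝 v₀, f (q v) = y) ∧ (∀ D ∈ 𝒟, q v₀ ∉ D) ∧
      lcoef (fun b v => U 0 b (q v)) v₀ ≠ 0 ∧ Function.Surjective fun (ξ : Cm d) (k : Fin r) =>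
        fderiv ℂ (fun v => lcoef (fun b v => U k.succ b (q v)) v /
          lcoef (fun b v => U 0 b (q v)) v) v₀ ξ

end

/-- **B7**: the forms. -/
def HasLStmt : Prop :=
  ∀ (p d r : ℕ) (X Y : Type) [TopologicalSpace X] [T2Space X] [ChartedSpace (Cm (p + d)) X]
    [IsManifold 𝓘(ℂ, Cm (p + d)) ω X] [TopologicalSpace Y] [T2Space Y] [ChartedSpace (Cm p) Y]
    [IsManifold 𝓘(ℂ, Cm p) ω Y] (T : Tame (Cm d) X) (f : X → Y) (S : Set Y)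
    (𝒟 : Finset (Set X)) (a : Fin (r + 1) → Fin d → Set X → ℤ)
    (e₀ : Cm (p + d) ≃L[ℂ] (Cm p × Cm d)) (Δ : Set X → ℝ), 0 < d →
    ContMDiff 𝓘(ℂ, Cm (p + d)) 𝓘(ℂ, Cm p) ω f → IsClosed S →
    H64.IsProperFibration (n := p + d) (p := p) f S →
    (∀ D ∈ 𝒟, J.IsPrime (Cm (p + d)) D) → (∀ D ∈ 𝒟, ∀ y ∉ S, ¬ f ⁻¹' {y} ⊆ D) →
    (∀ D, 0 ≤ Δ D) → (∀ D ∈ 𝒟, Δ D = 1) →
    (∀ s b, ∀ y₀ ∉ S, ∃ (W : Set Y) (U : X → ℂ), IsOpen W ∧ y₀ ∈ W ∧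
      IsUnitOn (Cm (p + d)) f 𝒟 (a s b) W U) →
    (∀ s b, ∀ ρ K : ℝ, 0 < ρ → 0 < K → ∃ B : ℝ, ∀ (y : Y) (U : X → ℂ), y ∉ S →
      IsUnitAt (Cm (p + d)) f 𝒟 (a s b) y U → ∀ (q : Cm d → X) (v₀ : Cm d),
      IsPolydisc (Cm (p + d)) f q v₀ ρ → T K q v₀ ρ → f (q v₀) = y →
      (∀ v ∈ ball v₀ ρ, ∀ D ∈ 𝒟, q v ∉ D) →
      ‖fderiv ℂ (fun v => U (q v)) v₀‖ ≤ B * ‖U (q v₀)‖) →
    ∀ y ∉ S, LRankAt (n := p + d) d f 𝒟 a y → HasFormsT T f S e₀ Δ r y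

/-! ### Fibres -/

section
variable {n d : ℕ} {X F : Type} [TopologicalSpace X] [ChartedSpace (Cm n) X]
  [TopologicalSpace F] [ChartedSpace (Cm d) F]

/-- `u` is a meromorphic function on `F`, with divisor `∑ a D (D|F)`, for `i : F → X`. -/
def IsUnitF (n d : ℕ) {X F : Type} [TopologicalSpace X] [ChartedSpace (Cm n) X]
    [TopologicalSpace F] [ChartedSpace (Cm d) F] (i : F → X) (𝒟 : Finset (Set X))
    (a : Set X → ℤ) (u : F → ℂ) : Prop :=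
  ∀ t, ∀ e : Set X → X → ℂ, (∀ D ∈ 𝒟, J.IsLocalEq (Cm n) D (e D) (i t)) →
    ∃ h : F → ℂ, J.HolAt (Cm d) h t ∧ h t ≠ 0 ∧
      ∀ᶠ s in 𝓝 t, (∀ D ∈ 𝒟, i s ∉ D) → u s = h s * ∏ D ∈ 𝒟, e D (i s) ^ a D

/-- The logarithmic Gauss map of `F`, given by `dlog u_1 ∧ ⋯ ∧ dlog u_d` for the units with the
divisors `∑ a s b D (D|F)`, has rank at least `r`. -/
def LGaussRank (n d : ℕ) {X F : Type} [TopologicalSpace X] [ChartedSpace (Cm n) X]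
    [TopologicalSpace F] [ChartedSpace (Cm d) F] (i : F → X) (𝒟 : Finset (Set X)) {r : ℕ}
    (a : Fin (r + 1) → Fin d → Set X → ℤ) : Prop :=
  ∃ u : Fin (r + 1) → Fin d → F → ℂ, (∀ s b, IsUnitF n d i 𝒟 (a s b) (u s b)) ∧
    ∃ x : F, (∀ D ∈ 𝒟, i x ∉ D) ∧
      lcoef (fun b v => u 0 b ((chartAt (Cm d) x).symm v)) (chartAt (Cm d) x x) ≠ 0 ∧
      Function.Surjective fun (ξ : Cm d) (k : Fin r) =>
        fderiv ℂ (fun v => lcoef (fun b v => u k.succ b ((chartAt (Cm d) x).symm v)) v /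
          lcoef (fun b v => u 0 b ((chartAt (Cm d) x).symm v)) v) (chartAt (Cm d) x x) ξ

end

/-- **B8a**: from the fibre `F` (compact, immersed injectively) to `f⁻¹(y)`. -/
def FibLStmt : Prop :=
  ∀ (p d r : ℕ) (X Y F : Type) [TopologicalSpace X] [T2Space X] [ChartedSpace (Cm (p + d)) X]
    [IsManifold 𝓘(ℂ, Cm (p + d)) ω X] [TopologicalSpace Y] [T2Space Y] [ChartedSpace (Cm p) Y]
    [IsManifold 𝓘(ℂ, Cm p) ω Y] [TopologicalSpace F] [ChartedSpace (Cm d) F] (f : X → Y)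
    (S : Set Y) (𝒟 : Finset (Set X)) (a : Fin (r + 1) → Fin d → Set X → ℤ) (i : F → X) (y : Y),
    0 < d → ContMDiff 𝓘(ℂ, Cm (p + d)) 𝓘(ℂ, Cm p) ω f → IsClosed S →
    H64.IsProperFibration (n := p + d) (p := p) f S →
    (∀ D ∈ 𝒟, J.IsPrime (Cm (p + d)) D) → (∀ D ∈ 𝒟, ∀ y ∉ S, ¬ f ⁻¹' {y} ⊆ D) → y ∉ S →
    H511.Surf.IsFibre (Cm (p + d)) (Cm d) f y i → Function.Injective i →
    LGaussRank (p + d) d i 𝒟 a → LRankAt (n := p + d) d f 𝒟 a y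

/-- **T-L**, the goal. -/
def TLStmt : Prop :=
  ∀ (p d r : ℕ) (X Y : Type) [TopologicalSpace X] [ChartedSpace (Cm (p + d)) X]
    [TopologicalSpace Y] [ChartedSpace (Cm p) Y] (f : X → Y) (Δ : Set X → ℝ)
    (a : Fin (r + 1) → Fin d → Set X → ℤ), 0 < d →
    H511.Surf.IsFibration (Cm (p + d)) (Cm p) f Δ →
    (∃ w : Chart (p + d) X → Cm (p + d) → Matrix (Fin (p + d)) (Fin (p + d)) ℂ, IsKahler w) →
    ∀ 𝒟 : Finset (Set X), (∀ D ∈ 𝒟, Δ D = 1) →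
    ∀ H₀ : ℕ → Set Y, (∀ k, IsThinSet (Cm p) (H₀ k)) → (∀ y, (∀ k, y ∉ H₀ k) →
      ∃ (F : Type) (_ : TopologicalSpace F) (_ : ChartedSpace (Cm d) F) (i : F → X),
        H511.Surf.IsFibre (Cm (p + d)) (Cm d) f y i ∧ Function.Injective i ∧
        LGaussRank (p + d) d i 𝒟 a) →
    ∃ H : ℕ → Set Y, (∀ k, IsThinSet (Cm p) (H k)) ∧ ∀ y, (∀ k, y ∉ H k) →
      ∀ (F : Type) [TopologicalSpace F] [ChartedSpace (Cm d) F] (i : F → X),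
        H511.Surf.IsFibre (Cm (p + d)) (Cm d) f y i →
        ((r : ℕ∞) : WithBot ℕ∞) + TZ.S.kodF (p + d) p Δ (id : X → X) f ≤
            TZ.S.kodX (Cm (p + d)) Δ ∧
          (TZ.S.kodR (Cm (p + d)) (Cm d) i Δ ≤ ((r : ℕ∞) : WithBot ℕ∞) →
            TZ.S.kodR (Cm (p + d)) (Cm d) i Δ + TZ.S.kodF (p + d) p Δ (id : X → X) f ≤
              TZ.S.kodX (Cm (p + d)) Δ ∧
            (NoExc (Cm (p + d)) (Cm p) f → H511.Surf.Q1 (Cm (p + d)) (Cm p) (Cm d) f Δ i))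

end Vale.Agent.P281.H969.TL
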