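import Vale.Agent.P281.H713.Slice2
import Vale.Agent.P281.H713.FormBuild

/-!
# P281, project T-L (helper969), block B7: linear algebra
-/

open scoped Manifold ContDiff Topology
open Set Filter Metric Module

namespace Vale.Agent.P281.H969.TL

open Vale.Agent.P281 Vale.Agent.P281.MF Vale.Agent.P281.ISO Vale.Agent.P281.H713

set_option linter.unusedSectionVars false

section Alg

variable {E E' V : Type} [NormedAddCommGroup E] [NormedSpace ℂ E] [FiniteDimensional ℂ E]
  [NormedAddCommGroup E'] [NormedSpace ℂ E'] [FiniteDimensional ℂ E']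
  [NormedAddCommGroup V] [NormedSpace ℂ V] [FiniteDimensional ℂ V]

theorem JP_add (e : E ≃L[ℂ] (E' × V)) (A : E →L[ℂ] E') (P : E →L[ℂ] V) (S : E' →L[ℂ] V) :
    JP e A (P + S.comp A) = JP e A P := by
  unfold JP
  have h1 : ((A.prod (P + S.comp A)).comp (e.symm : (E' × V) →L[ℂ] E)) =
      (ContinuousLinearMap.id ℂ (E' × V) + (ContinuousLinearMap.inr ℂ E' V).comp
        (S.comp (ContinuousLinearMap.fst ℂ E' V))).comp
          ((A.prod P).comp (e.symm : (E' × V) →L[ℂ] E)) := by
    ext w <;> simp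
  rw [h1, clm_det_comp, det_id_add (fun v => by simp), one_mul]

/-- `JP e A P` depends only on the restriction of `P` to the kernel of `A`. -/
theorem JP_ker (e : E ≃L[ℂ] (E' × V)) {A : E →L[ℂ] E'} (hA : Function.Surjective A)
    {P P' : E →L[ℂ] V} (h : ∀ ξ, A ξ = 0 → P' ξ = P ξ) : JP e A P' = JP e A P := by
  obtain ⟨g, hg⟩ := (A : E →ₗ[ℂ] E').exists_rightInverse_of_surjective
    (LinearMap.range_eq_top.2 hA)
  have hg' : ∀ y, A (g y) = y := fun y => LinearMap.congr_fun hg y
  have h1 : P' = P + (((P' - P).comp (LinearMap.toContinuousLinearMap g))).comp A := by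
    ext ξ
    have h2 : A (ξ - g (A ξ)) = 0 := by rw [map_sub, hg', sub_self]
    have h3 := h _ h2
    rw [map_sub, map_sub, sub_eq_sub_iff_add_eq_add] at h3
    show P' ξ = P ξ + (P' (g (A ξ)) - P (g (A ξ)))
    rw [← add_sub_assoc, ← h3, add_sub_cancel_right]
  rw [h1, JP_add]

theorem frame_ker (e : E ≃L[ℂ] (E' × V)) {A : E →L[ℂ] E'} (hA : Function.Surjective A)
    {P : E →L[ℂ] V} {t : V →L[ℂ] E} (hAt : ∀ v, A (t v) = 0) (hP : ∀ v, P (t v) = v) {ξ : E}
    (hξ : A ξ = 0) : t (P ξ) = ξ := by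
  have h1 : Function.Surjective ((A.prod P) : E →L[ℂ] (E' × V)) := by
    rintro ⟨a, v⟩
    obtain ⟨x, rfl⟩ := hA a
    exact ⟨x + t (v - P x), by simp [hAt, hP]⟩
  have h2 : Function.Injective ((A.prod P) : E →L[ℂ] (E' × V)) := by
    have h3 : finrank ℂ E = finrank ℂ (E' × V) := e.toLinearEquiv.finrank_eq
    exact (LinearMap.injective_iff_surjective_of_finrank_eq_finrank h3
      (f := ((A.prod P : E →L[ℂ] (E' × V)) : E →ₗ[ℂ] (E' × V)))).2 h1
  refine h2 (Prod.ext ?_ ?_)
  · show A (t (P ξ)) = A ξ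
    rw [hAt, hξ]
  · show P (t (P ξ)) = P ξ
    rw [hP]

/-- Comparison with a frame of the kernel of `A`. -/
theorem JP_det (e : E ≃L[ℂ] (E' × V)) {A : E →L[ℂ] E'} (hA : Function.Surjective A)
    {P : E →L[ℂ] V} {t : V →L[ℂ] E} (hAt : ∀ v, A (t v) = 0) (hP : ∀ v, P (t v) = v)
    (P' : E →L[ℂ] V) : JP e A P' = (P'.comp t).det * JP e A P := by
  have h1 : JP e A P' = JP e A ((P'.comp t).comp P) := by
    refine JP_ker e hA fun ξ hξ => ?_
    show P' ξ = P' (t (P ξ))
    rw [frame_ker e hA hAt hP hξ]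
  have h2 := JP_left e A P (ContinuousLinearMap.id ℂ E') (P'.comp t)
  have h3 : (ContinuousLinearMap.id ℂ E').det = 1 := by simp [ContinuousLinearMap.det]
  rw [h3, one_mul, show (ContinuousLinearMap.id ℂ E').comp A = A by ext x; rfl] at h2
  rw [h1, h2]

end Alg

section Rows

variable {E E' : Type} [NormedAddCommGroup E] [NormedSpace ℂ E] [FiniteDimensional ℂ E]
  [NormedAddCommGroup E'] [NormedSpace ℂ E'] [FiniteDimensional ℂ E'] {d : ℕ}

/-- `JP e A (ρ_1, …, ρ_d)` is multilinear and alternating in `ρ`. -/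
theorem exists_JPm (e : E ≃L[ℂ] (E' × (Fin d → ℂ))) (A : E →L[ℂ] E') :
    ∃ M : (E →L[ℂ] ℂ) [⋀^Fin d]→ₗ[ℂ] ℂ, ∀ ρ : Fin d → (E →L[ℂ] ℂ),
      M ρ = JP e A (ContinuousLinearMap.pi ρ) := by
  let b' := Module.finBasis ℂ E'
  let B := b'.prod (Pi.basisFun ℂ (Fin d))
  let R : Fin (finrank ℂ E') → (Fin (finrank ℂ E') ⊕ Fin d) → ℂ :=
    fun k j => b'.repr (A (e.symm (B j))) k
  let Λ : (E →L[ℂ] ℂ) →ₗ[ℂ] ((Fin (finrank ℂ E') ⊕ Fin d) → ℂ) :=
    { toFun := fun ρ j => ρ (e.symm (B j))
      map_add' := fun ρ ρ' => by ext j; rfl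
      map_smul' := fun c ρ => by ext j; rfl }
  let F : (Fin d → (E →L[ℂ] ℂ)) → Matrix (Fin (finrank ℂ E') ⊕ Fin d)
      (Fin (finrank ℂ E') ⊕ Fin d) ℂ := fun ρ => Matrix.of (Sum.elim R fun b => Λ (ρ b))
  have hupd : ∀ (ρ : Fin d → (E →L[ℂ] ℂ)) (b : Fin d)
      (x : E →L[ℂ] ℂ), F (Function.update ρ b x) =
        (F ρ).updateRow (Sum.inr b) (Λ x) := by
    intro ρ b x
    ext i j
    rcases i with k | c
    · rw [Matrix.updateRow_ne (by simp)]
      rfl
    · by_cases hc : c = b
      · subst hc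
        rw [Matrix.updateRow_self]
        show Λ (Function.update ρ c x c) j = _
        rw [Function.update_self]
      · rw [Matrix.updateRow_ne (fun h => hc (Sum.inr_injective h))]
        show Λ (Function.update ρ b x c) j = Λ (ρ c) j
        rw [Function.update_of_ne hc]
  refine ⟨{ toFun := fun ρ => (F ρ).det
            map_update_add' := fun {dec} ρ b x y => by
              have hdec : dec = instDecidableEqFin d := Subsingleton.elim _ _
              subst hdec
              rw [hupd, hupd, hupd, map_add, Matrix.det_updateRow_add]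
            map_update_smul' := fun {dec} ρ b c x => by
              have hdec : dec = instDecidableEqFin d := Subsingleton.elim _ _
              subst hdec
              rw [hupd, hupd, map_smul, smul_eq_mul, Matrix.det_updateRow_smul]
            map_eq_zero_of_eq' := fun ρ i j hij hne => by
              refine Matrix.det_zero_of_row_eq (i := Sum.inr i) (j := Sum.inr j)
                (fun h => hne (Sum.inr_injective h)) ?_
              show Λ (ρ i) = Λ (ρ j)
              rw [hij] }, fun ρ => ?_⟩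
  show (F ρ).det = LinearMap.det _
  rw [← LinearMap.det_toMatrix B]
  congr 1
  ext i j
  rw [LinearMap.toMatrix_apply]
  rcases i with k | c
  · show R k j = _
    simp only [R, B]
    rw [Basis.prod_repr_inl]
    rfl
  · show Λ (ρ c) j = _
    rw [Basis.prod_repr_inr]
    rfl

/-- Expansion of `JP` of sums. -/
theorem JP_expand (e : E ≃L[ℂ] (E' × (Fin d → ℂ))) (A : E →L[ℂ] E') {κ : Type} [Fintype κ]
    (c : Fin d → κ → ℂ) (g : Fin d → κ → (E →L[ℂ] ℂ)) :
    JP e A (ContinuousLinearMap.pi fun b => ∑ k, c b k • g b k) =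
      ∑ K : Fin d → κ, (∏ b, c b (K b)) * JP e A (ContinuousLinearMap.pi fun b => g b (K b)) := by
  classical
  obtain ⟨M, hM⟩ := exists_JPm e A
  rw [← hM]
  have h1 := M.toMultilinearMap.map_sum (fun b k => c b k • g b k)
  have h2 : M (fun b => ∑ k, c b k • g b k) =
      ∑ K : Fin d → κ, M fun b => c b (K b) • g b (K b) := h1
  rw [h2]
  refine Finset.sum_congr rfl fun K _ => ?_
  have h3 := M.toMultilinearMap.map_smul_univ (fun b => c b (K b)) (fun b => g b (K b))
  have h4 : M (fun b => c b (K b) • g b (K b)) = (∏ b, c b (K b)) • M fun b => g b (K b) := h3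
  rw [h4, hM, smul_eq_mul]

theorem JP_eq_zero (e : E ≃L[ℂ] (E' × (Fin d → ℂ))) (A : E →L[ℂ] E') {ρ : Fin d → (E →L[ℂ] ℂ)}
    {i j : Fin d} (hij : i ≠ j) (h : ρ i = ρ j) : JP e A (ContinuousLinearMap.pi ρ) = 0 := by
  obtain ⟨M, hM⟩ := exists_JPm e A
  rw [← hM]
  exact M.map_eq_zero_of_eq ρ h hij

/-- The pole orders of the terms. -/
theorem prod_opt {𝒟 : Type} [Fintype 𝒟] [DecidableEq 𝒟] {K : Fin d → Option 𝒟}
    (hK : ∀ i j, i ≠ j → K i = K j → K i = none) {e : 𝒟 → ℂ} (he : ∀ D, e D ≠ 0) :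
    (∏ b, (K b).elim 1 fun D => (e D)⁻¹) * ∏ D, e D =
      ∏ D, if (∃ b, K b = some D) then 1 else e D := by
  classical
  have h1 : ∏ b, ((K b).elim 1 fun D => (e D)⁻¹) =
      ∏ D, if (∃ b, K b = some D) then (e D)⁻¹ else 1 := by
    rw [← Finset.prod_filter]
    refine Finset.prod_bij_ne_one (s := Finset.univ) (fun b _ h => (K b).get (by
        rw [Option.isSome_iff_ne_none]
        intro h0
        rw [h0] at h
        exact h rfl)) ?_ ?_ ?_ ?_
    · intro b _ h
      rw [Finset.mem_filter]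
      exact ⟨Finset.mem_univ _, b, by simp⟩
    · intro b₁ _ h₁ b₂ _ h₂ h
      by_contra hne
      have h3 : K b₁ = K b₂ := by
        have := congrArg some h
        simpa using this
      have h4 := hK b₁ b₂ hne h3
      rw [h4] at h₁
      exact h₁ rfl
    · intro D hD h
      obtain ⟨-, b, hb⟩ := Finset.mem_filter.1 hD
      refine ⟨b, Finset.mem_univ _, ?_, ?_⟩
      · rw [hb]
        exact h
      · simp [hb]
    · intro b _ h
      have h5 : K b ≠ none := by
        intro h0
        rw [h0] at h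
        exact h rfl
      obtain ⟨D, hD⟩ := Option.ne_none_iff_exists'.1 h5
      simp [hD]
  rw [h1, ← Finset.prod_mul_distrib]
  refine Finset.prod_congr rfl fun D _ => ?_
  split_ifs
  · exact inv_mul_cancel₀ (he D)
  · rw [one_mul]

end Rows

end Vale.Agent.P281.H969.TL
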