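import Vale.Agent.P281.H713.Slice2
import Vale.Agent.P281.H713.ZC
import Vale.Agent.P281.H969.TL.Spec
import Vale.Agent.P281.H969.TL.Alg

/-!
# P281, project T-L (helper969), block B7: functions on the fibres
-/

open scoped Manifold ContDiff Topology
open Set Filter Metric Module

namespace Vale.Agent.P281.H969.TL

open Vale.Agent.P281 Vale.Agent.P281.MF Vale.Agent.P281.ISO Vale.Agent.P281.ELL
open Vale.Agent.P281.H713

set_option linter.unusedSectionVars false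

section Top

variable {X : Type} [TopologicalSpace X]

/-- A property which holds on an open and closed subset of a connected set. -/
theorem clopen_fib {F : Set X} (hF : IsPreconnected F) {P : X → Prop}
    (h1 : ∀ x ∈ F, P x → ∀ᶠ z in 𝓝[F] x, P z) (h2 : ∀ x ∈ F, (∃ᶠ z in 𝓝[F] x, P z) → P x)
    {x₀ : X} (hx₀ : x₀ ∈ F) (h₀ : P x₀) {x : X} (hx : x ∈ F) : P x := by
  have : PreconnectedSpace F := Subtype.preconnectedSpace hF
  have h3 : IsClopen {z : F | P z} := by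
    constructor
    · rw [← isOpen_compl_iff, isOpen_iff_mem_nhds]
      intro z hz
      have h4 : ¬ ∃ᶠ w in 𝓝[F] (z : X), P w := fun h => hz (h2 z z.2 h)
      rw [not_frequently] at h4
      exact (eventually_nhds_subtype_iff F z fun w => ¬ P w).2 h4
    · rw [isOpen_iff_mem_nhds]
      intro z hz
      exact (eventually_nhds_subtype_iff F z P).2 (h1 z z.2 hz)
  have h4 := h3.eq_univ ⟨⟨x₀, hx₀⟩, h₀⟩
  have h5 : (⟨x, hx⟩ : F) ∈ {z : F | P z} := by rw [h4]; trivial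
  exact h5

end Top

section Slice

variable {E E' E₀ : Type} [NormedAddCommGroup E] [NormedSpace ℂ E] [FiniteDimensional ℂ E]
  [NormedAddCommGroup E'] [NormedSpace ℂ E'] [FiniteDimensional ℂ E']
  [NormedAddCommGroup E₀] [NormedSpace ℂ E₀] [FiniteDimensional ℂ E₀]
variable {X Y : Type} [TopologicalSpace X] [ChartedSpace E X] [IsManifold 𝓘(ℂ, E) ω X]
  [TopologicalSpace Y] [ChartedSpace E' Y] [IsManifold 𝓘(ℂ, E') ω Y]

/-- A projection which is injective on the kernel of a surjective map. -/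
theorem exists_proj (e₀ : E ≃L[ℂ] (E' × E₀)) {A : E →L[ℂ] E'} (hA : Function.Surjective A) :
    ∃ P : E →L[ℂ] E₀, ∀ ξ, A ξ = 0 → P ξ = 0 → ξ = 0 := by
  have h1 := (A : E →ₗ[ℂ] E').finrank_range_add_finrank_ker
  rw [LinearMap.range_eq_top.2 hA, finrank_top] at h1
  have h2 : finrank ℂ E = finrank ℂ E' + finrank ℂ E₀ := by
    rw [e₀.toLinearEquiv.finrank_eq, finrank_prod]
  have h3 : finrank ℂ (LinearMap.ker (A : E →ₗ[ℂ] E')) = finrank ℂ E₀ := by omega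
  let φ := LinearEquiv.ofFinrankEq _ _ h3
  obtain ⟨P, hP⟩ := LinearMap.exists_extend φ.toLinearMap
  refine ⟨LinearMap.toContinuousLinearMap P, fun ξ h4 h5 => ?_⟩
  have h6 := LinearMap.congr_fun hP (⟨ξ, h4⟩ : LinearMap.ker (A : E →ₗ[ℂ] E'))
  have h7 : φ ⟨ξ, h4⟩ = 0 := by
    have h8 : P ξ = 0 := h5
    exact h6.symm.trans h8
  have h9 := (map_eq_zero_iff φ φ.injective).1 h7
  exact congrArg Subtype.val h9

/-- Fibre coordinates of a submersion. -/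
theorem exists_fcoord {f : X → Y} (e₀ : E ≃L[ℂ] (E' × E₀)) {x : X}
    (hs : Function.Surjective (dM E E' f x)) :
    ∃ ζ : X → E₀, HolV E ζ x ∧ ∀ ξ, dM E E' f x ξ = 0 → dV E ζ x ξ = 0 → ξ = 0 := by
  obtain ⟨P, hP⟩ := exists_proj e₀ hs
  have hx : x ∈ (chartAt E x).source := mem_chart_source E x
  obtain ⟨A, hA⟩ := dV_chart_leftInv (E := E) hx
  have h1 : ContDiffAt ℂ ω (fun v : E => (P.comp A) v) (chartAt E x x) :=
    (P.comp A).contDiff.contDiffAt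
  refine ⟨fun z => (P.comp A) (chartAt E x z), HolV.comp_contDiff h1 (HolV.chart hx),
    fun ξ h2 h3 => hP ξ h2 ?_⟩
  have h4 := dV_comp_contDiff h1 (HolV.chart hx)
  have h5 : fderiv ℂ (fun v : E => (P.comp A) v) (chartAt E x x) = P.comp A := (P.comp A).fderiv
  rw [h4, h5] at h3
  have h6 : A (dV E (chartAt E x : X → E) x ξ) = ξ := congrArg (fun L : E →L[ℂ] E => L ξ) hA
  have h7 : P (A (dV E (chartAt E x : X → E) x ξ)) = 0 := h3
  rw [h6] at h7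
  exact h7

/-- Slices of a submersion, which contain all the points of the fibre near `x₀`. -/
theorem exists_slice' {f : X → Y} (hf : ∀ x, HolM E E' f x) (e₀ : E ≃L[ℂ] (E' × E₀)) {x₀ : X}
    {ζ : X → E₀} (hζ : HolV E ζ x₀)
    (hinj : ∀ ξ, dM E E' f x₀ ξ = 0 → dV E ζ x₀ ξ = 0 → ξ = 0) :
    ∃ q : E₀ → X, ContMDiffAt 𝓘(ℂ, E₀) 𝓘(ℂ, E) ω q (ζ x₀) ∧ q (ζ x₀) = x₀ ∧
      (∀ᶠ p in 𝓝 (ζ x₀), f (q p) = f x₀ ∧ ζ (q p) = p) ∧
      ∀ᶠ z in 𝓝 x₀, f z = f x₀ → q (ζ z) = z := by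
  have : CompleteSpace E := FiniteDimensional.complete ℂ E
  have : CompleteSpace E' := FiniteDimensional.complete ℂ E'
  have : CompleteSpace E₀ := FiniteDimensional.complete ℂ E₀
  set φ := chartAt E x₀ with hφ
  set ψY := chartAt E' (f x₀) with hψY
  have hxs : x₀ ∈ φ.source := mem_chart_source E x₀
  have hys : f x₀ ∈ ψY.source := mem_chart_source E' (f x₀)
  have h1 : HolV E (fun z => ψY (f z)) x₀ :=
    HolV.comp (h := (ψY : Y → E')) (HolV.chart hys) (hf x₀)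
  have hG1 : ContDiffAt ℂ ω ((fun z => ψY (f z)) ∘ φ.symm) (φ x₀) := h1.rep hxs
  have hG2 : ContDiffAt ℂ ω (ζ ∘ φ.symm) (φ x₀) := hζ.rep hxs
  set G : E → E' × E₀ := fun v => (ψY (f (φ.symm v)), ζ (φ.symm v)) with hG
  have hGc : ContDiffAt ℂ ω G (φ x₀) := hG1.prodMk hG2
  set L₁ := fderiv ℂ ((fun z => ψY (f z)) ∘ φ.symm) (φ x₀) with hL₁
  set L₂ := fderiv ℂ (ζ ∘ φ.symm) (φ x₀) with hL₂
  have hGd : HasFDerivAt G (L₁.prod L₂) (φ x₀) :=
    (hG1.differentiableAt (by simp)).hasFDerivAt.prodMk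
      (hG2.differentiableAt (by simp)).hasFDerivAt
  have d1 : (dV E' (ψY : Y → E') (f x₀)).comp (dM E E' f x₀) =
      L₁.comp (dV E (φ : X → E) x₀) := by
    have h9 := dV_comp (h := (ψY : Y → E')) (HolV.chart hys) (hf x₀)
    rw [← h9]
    exact dV_eq_chart hxs h1
  have d2 : dV E ζ x₀ = L₂.comp (dV E (φ : X → E) x₀) := dV_eq_chart hxs hζ
  have hker : ∀ ξ, L₁ (dV E (φ : X → E) x₀ ξ) = 0 → dM E E' f x₀ ξ = 0 := by
    intro ξ hv1
    have e1 := congrArg (fun T : E →L[ℂ] E' => T ξ) d1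
    simp only [ContinuousLinearMap.comp_apply] at e1
    rw [hv1] at e1
    obtain ⟨A₁, hA₁⟩ := dV_chart_leftInv (E := E') hys
    have := congrArg (fun T : E' →L[ℂ] E' => T (dM E E' f x₀ ξ)) hA₁
    simp only [ContinuousLinearMap.comp_apply, ContinuousLinearMap.id_apply] at this
    rw [← this, e1, map_zero]
  have hinj' : Function.Injective (L₁.prod L₂) := by
    rw [injective_iff_map_eq_zero]
    intro v hv
    obtain ⟨ξ, rfl⟩ := dV_chart_surj (E := E) hxs v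
    have hv1 : L₁ (dV E (φ : X → E) x₀ ξ) = 0 := (Prod.mk.inj hv).1
    have hv2 : L₂ (dV E (φ : X → E) x₀ ξ) = 0 := (Prod.mk.inj hv).2
    have e4 : dV E ζ x₀ ξ = 0 := by
      rw [d2]
      exact hv2
    rw [hinj ξ (hker ξ hv1) e4, map_zero]
  have hbij : Function.Bijective ((L₁.prod L₂ : E →L[ℂ] (E' × E₀)) : E →ₗ[ℂ] (E' × E₀)) := by
    refine ⟨hinj', ?_⟩
    have h3 : Function.Injective (((L₁.prod L₂ : E →L[ℂ] (E' × E₀)) : E →ₗ[ℂ] (E' × E₀)) ∘ₗ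
        (e₀.symm.toLinearEquiv : (E' × E₀) →ₗ[ℂ] E)) := hinj'.comp e₀.symm.injective
    have h4 := LinearMap.surjective_of_injective h3
    intro w
    obtain ⟨v, hv⟩ := h4 w
    exact ⟨e₀.symm v, hv⟩
  let L : E ≃L[ℂ] (E' × E₀) := (LinearEquiv.ofBijective _ hbij).toContinuousLinearEquiv
  have hL : (L : E →L[ℂ] (E' × E₀)) = L₁.prod L₂ := by ext v <;> rfl
  have hGd' : HasFDerivAt G (L : E →L[ℂ] (E' × E₀)) (φ x₀) := by rw [hL]; exact hGd
  have hn : (ω : WithTop ℕ∞) ≠ 0 := by simp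
  set R := hGc.localInverse hGd' hn with hR
  have hRc : ContDiffAt ℂ ω R (G (φ x₀)) := hGc.to_localInverse hGd' hn
  have hstr : HasStrictFDerivAt G (L : E →L[ℂ] (E' × E₀)) (φ x₀) :=
    hGc.hasStrictFDerivAt' hGd' hn
  have hRr : ∀ᶠ w in 𝓝 (G (φ x₀)), G (R w) = w := hstr.eventually_right_inverse
  have hRl : ∀ᶠ v in 𝓝 (φ x₀), R (G v) = v := hstr.eventually_left_inverse
  have hR0 : R (G (φ x₀)) = φ x₀ := hstr.eventually_left_inverse.self_of_nhds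
  have hG0 : G (φ x₀) = (ψY (f x₀), ζ x₀) := by
    simp only [hG, φ.left_inv hxs]
  set γ : E₀ → E := fun p => R (ψY (f x₀), p) with hγ
  have hγ0 : γ (ζ x₀) = φ x₀ := by
    simp only [hγ]
    rw [← hG0, hR0]
  have hγc : ContDiffAt ℂ ω γ (ζ x₀) := by
    have h2 : ContDiffAt ℂ ω R (ψY (f x₀), ζ x₀) := by rw [← hG0]; exact hRc
    exact h2.comp (ζ x₀) (contDiffAt_const.prodMk contDiffAt_id)
  have hsymm : ContMDiffAt 𝓘(ℂ, E) 𝓘(ℂ, E) ω φ.symm (φ x₀) :=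
    contMDiffOn_chart_symm.contMDiffAt (φ.open_target.mem_nhds (φ.map_source hxs))
  refine ⟨fun p => φ.symm (γ p), ?_, ?_, ?_, ?_⟩
  · have h2 : ContMDiffAt 𝓘(ℂ, E₀) 𝓘(ℂ, E) ω γ (ζ x₀) := contMDiffAt_iff_contDiffAt.2 hγc
    have h3 : ContMDiffAt 𝓘(ℂ, E) 𝓘(ℂ, E) ω φ.symm (γ (ζ x₀)) := by rw [hγ0]; exact hsymm
    exact ContMDiffAt.comp (ζ x₀) h3 h2
  · show φ.symm (γ (ζ x₀)) = x₀
    rw [hγ0, φ.left_inv hxs]
  · have hγt : Tendsto γ (𝓝 (ζ x₀)) (𝓝 (φ x₀)) := by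
      have := hγc.continuousAt.tendsto
      rwa [hγ0] at this
    have hz : Tendsto (fun p => φ.symm (γ p)) (𝓝 (ζ x₀)) (𝓝 x₀) := (tendsto_symm x₀).comp hγt
    have hpairc : Tendsto (fun p : E₀ => (ψY (f x₀), p)) (𝓝 (ζ x₀)) (𝓝 (G (φ x₀))) := by
      rw [hG0]
      exact (continuous_const.prodMk continuous_id).tendsto _
    filter_upwards [hpairc.eventually hRr,
      hz.eventually ((hf x₀).continuousAt.eventually (ψY.open_source.mem_nhds hys))] with p h3 h4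
    have h7 : ψY (f (φ.symm (γ p))) = ψY (f x₀) := (Prod.mk.inj h3).1
    have h8 : ζ (φ.symm (γ p)) = p := (Prod.mk.inj h3).2
    exact ⟨ψY.injOn h4 hys h7, h8⟩
  · filter_upwards [(φ.continuousAt hxs).eventually hRl, φ.open_source.mem_nhds hxs]
      with z h3 h4 h5
    have h6 : G (φ z) = (ψY (f x₀), ζ z) := by
      simp only [hG, φ.left_inv h4, h5]
    show φ.symm (R (ψY (f x₀), ζ z)) = z
    rw [← h6, h3, φ.left_inv h4]

/-- Slices at all the points where `f` is submersive. -/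
theorem exists_slice_s {f : X → Y} (hf : ∀ x, HolM E E' f x) (e₀ : E ≃L[ℂ] (E' × E₀)) {x₀ : X}
    (hs : Function.Surjective (dM E E' f x₀)) :
    ∃ (ζ : X → E₀) (q : E₀ → X), HolV E ζ x₀ ∧
      (∀ ξ, dM E E' f x₀ ξ = 0 → dV E ζ x₀ ξ = 0 → ξ = 0) ∧
      ContMDiffAt 𝓘(ℂ, E₀) 𝓘(ℂ, E) ω q (ζ x₀) ∧ q (ζ x₀) = x₀ ∧
      (∀ᶠ p in 𝓝 (ζ x₀), f (q p) = f x₀ ∧ ζ (q p) = p) ∧
      ∀ᶠ z in 𝓝 x₀, f z = f x₀ → q (ζ z) = z := by
  obtain ⟨ζ, hζ, hinj⟩ := exists_fcoord e₀ hs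
  obtain ⟨q, h⟩ := exists_slice' hf e₀ hζ hinj
  exact ⟨ζ, q, hζ, hinj, h⟩

end Slice

section Fibre

variable {E E' : Type} [NormedAddCommGroup E] [NormedSpace ℂ E] [FiniteDimensional ℂ E]
  [NormedAddCommGroup E'] [NormedSpace ℂ E'] [FiniteDimensional ℂ E']
variable {X Y : Type} [TopologicalSpace X] [ChartedSpace E X] [IsManifold 𝓘(ℂ, E) ω X]
  [TopologicalSpace Y] [ChartedSpace E' Y] [IsManifold 𝓘(ℂ, E') ω Y] {d : ℕ}

/-- The identity theorem in a slice. -/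
theorem slice_ident {f : X → Y} (hf : ∀ x, HolM E E' f x) (e₀ : E ≃L[ℂ] (E' × (Fin d → ℂ)))
    {x₀ : X} (hs : Function.Surjective (dM E E' f x₀)) {g : X → ℂ} (hg : HolV E g x₀) :
    ∃ N ∈ 𝓝 x₀, (∃ z ∈ N, f z = f x₀ ∧ ∀ᶠ w in 𝓝 z, f w = f x₀ → g w = 0) →
      ∀ᶠ w in 𝓝 x₀, f w = f x₀ → g w = 0 := by
  obtain ⟨ζ, q, hζ, -, hq, hq0, hqe, hqz⟩ := exists_slice_s hf e₀ hs
  have hgq : HolV E g (q (ζ x₀)) := by rw [hq0]; exact hg
  have h1 : ContDiffAt ℂ ω (fun v => g (q v)) (ζ x₀) := (slice_fderiv hq hgq).1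
  have h2 : ∀ᶠ v in 𝓝 (ζ x₀), AnalyticAt ℂ (fun v => g (q v)) v :=
    h1.analyticAt.eventually_analyticAt
  have h2' : ∀ᶠ v in 𝓝 (ζ x₀), ContinuousAt q v :=
    ((contMDiffAt_iff_contMDiffAt_nhds (by simp)).1 hq).mono fun v hv => hv.continuousAt
  obtain ⟨r, hr, hball⟩ := Metric.eventually_nhds_iff_ball.1 (h2.and (hqe.and h2'))
  have h3 : ∀ᶠ z in 𝓝 x₀, ζ z ∈ ball (ζ x₀) r :=
    hζ.continuousAt.eventually (ball_mem_nhds _ hr)
  refine ⟨{z | (f z = f x₀ → q (ζ z) = z) ∧ ζ z ∈ ball (ζ x₀) r}, hqz.and h3, ?_⟩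
  rintro ⟨z, ⟨hz1, hz2⟩, hz3, hz4⟩
  have h4 : q (ζ z) = z := hz1 hz3
  have h5 : ∀ᶠ v in 𝓝 (ζ z), g (q v) = 0 := by
    have h6 : Tendsto q (𝓝 (ζ z)) (𝓝 z) := by
      have := (hball _ hz2).2.2.tendsto
      rwa [h4] at this
    filter_upwards [h6.eventually hz4, isOpen_ball.mem_nhds hz2] with v h7 h8
    exact h7 (hball v h8).2.1.1
  have h7 : EqOn (fun v => g (q v)) 0 (ball (ζ x₀) r) :=
    AnalyticOnNhd.eqOn_zero_of_preconnected_of_eventuallyEq_zero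
      (fun v hv => (hball v hv).1) (convex_ball _ _).isPreconnected hz2 h5
  filter_upwards [hqz, h3] with w h8 h9 h10
  have h11 := h7 h9
  rw [← h8 h10]
  exact h11

/-- A divisor which does not contain a fibre is nowhere dense in it. -/
theorem dense_one {f : X → Y} (hf : ∀ x, HolM E E' f x) (e₀ : E ≃L[ℂ] (E' × (Fin d → ℂ)))
    {y : Y} (hs : ∀ x, f x = y → Function.Surjective (dM E E' f x))
    (hc : IsPreconnected (f ⁻¹' {y})) {D : Set X} (hD : ∀ x, ∃ g, J.IsLocalEq E D g x)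
    (hne : ¬ f ⁻¹' {y} ⊆ D) {x : X} (hx : f x = y) : ∃ᶠ z in 𝓝[f ⁻¹' {y}] x, z ∉ D := by
  intro h0
  refine hne fun x' hx' => ?_
  have h1 : ∀ᶠ z in 𝓝[f ⁻¹' {y}] x', z ∈ D := by
    refine clopen_fib (P := fun x => ∀ᶠ z in 𝓝[f ⁻¹' {y}] x, z ∈ D) hc ?_ ?_
      (show x ∈ f ⁻¹' {y} from hx) (h0.mono fun z hz => not_not.1 hz) hx'
    · intro z _ hz
      exact eventually_eventually_nhdsWithin.2 hz
    · intro z hz hfr
      have hz' : f z = y := hz
      obtain ⟨g, V, hV, hzV, hgV, hDV, -⟩ := hD z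
      obtain ⟨N, hN, hNe⟩ := slice_ident hf e₀ (hs z hz') (hgV z hzV)
      rw [hz'] at hNe
      have h2 : ∃ w ∈ N, f w = y ∧ ∀ᶠ u in 𝓝 w, f u = y → g u = 0 := by
        have h3 : ∀ᶠ w in 𝓝[f ⁻¹' {y}] z, w ∈ N ∩ V :=
          mem_nhdsWithin_of_mem_nhds (inter_mem hN (hV.mem_nhds hzV))
        have h3' : ∀ᶠ w in 𝓝[f ⁻¹' {y}] z, f w = y := self_mem_nhdsWithin
        obtain ⟨w, hw1, hw2, hw3⟩ := (hfr.and_eventually (h3.and h3')).exists
        refine ⟨w, hw2.1, hw3, ?_⟩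
        filter_upwards [eventually_nhdsWithin_iff.1 hw1, hV.mem_nhds hw2.2] with u h4 h5 h6
        exact (hDV u h5).1 (h4 h6)
      rw [eventually_nhdsWithin_iff]
      filter_upwards [hNe h2, hV.mem_nhds hzV] with u h4 h5 h6
      exact (hDV u h5).2 (h4 h6)
  exact (eventually_nhdsWithin_iff.1 h1).self_of_nhds hx'

/-- The complement of the divisors is dense in the fibre. -/
theorem dense_fib {f : X → Y} (hf : ∀ x, HolM E E' f x) (e₀ : E ≃L[ℂ] (E' × (Fin d → ℂ)))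
    {y : Y} (hs : ∀ x, f x = y → Function.Surjective (dM E E' f x))
    (hc : IsPreconnected (f ⁻¹' {y})) {𝒟 : Finset (Set X)} (hD : ∀ D ∈ 𝒟, J.IsPrime E D)
    (hne : ∀ D ∈ 𝒟, ¬ f ⁻¹' {y} ⊆ D) {x : X} (hx : f x = y) :
    ∃ᶠ z in 𝓝 x, f z = y ∧ ∀ D ∈ 𝒟, z ∉ D := by
  classical
  have h0 : ∀ 𝒟' : Finset (Set X), 𝒟' ⊆ 𝒟 → ∀ x, f x = y →
      ∃ᶠ z in 𝓝 x, f z = y ∧ ∀ D ∈ 𝒟', z ∉ D := by
    intro 𝒟'
    induction 𝒟' using Finset.induction_on with
    | empty =>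
      intro _ x hx h0
      exact h0.self_of_nhds ⟨hx, fun D hD => absurd hD (Finset.notMem_empty D)⟩
    | insert D 𝒟' hDn ih =>
      intro hsub x hx h0
      have hsub' : 𝒟' ⊆ 𝒟 := (Finset.subset_insert D 𝒟').trans hsub
      obtain ⟨z, ⟨hz1, hz2⟩, hz3⟩ :=
        ((ih hsub' x hx).and_eventually (eventually_eventually_nhds.2 h0)).exists
      have h1 : ∀ᶠ w in 𝓝 z, ∀ D' ∈ 𝒟', w ∉ D' :=
        (Finset.eventually_all 𝒟').2 fun D' hD' =>
          (hD D' (hsub' hD')).1.isOpen_compl.mem_nhds (hz2 D' hD')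
      have h2 := hsub (Finset.mem_insert_self D 𝒟')
      refine dense_one hf e₀ hs hc (hD D h2).2.1 (hne D h2) hz1 ?_
      rw [eventually_nhdsWithin_iff]
      filter_upwards [h1, hz3] with w h3 h4 h5 h6
      refine h4 ⟨h5, fun D' hD' => ?_⟩
      rcases Finset.mem_insert.1 hD' with h7 | h7
      · rw [h7]
        exact h6
      · exact h3 D' h7
  exact h0 𝒟 (Finset.Subset.refl _) x hx

/-- **Maximum principle**: functions on a compact connected fibre. -/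
theorem const_fib {f : X → Y} (hf : ∀ x, HolM E E' f x) (e₀ : E ≃L[ℂ] (E' × (Fin d → ℂ)))
    {y : Y} (hs : ∀ x, f x = y → Function.Surjective (dM E E' f x))
    (hc : IsPreconnected (f ⁻¹' {y})) (hk : IsCompact (f ⁻¹' {y})) {k : X → ℂ}
    (hh : ∀ x, f x = y → ∃ h : X → ℂ, HolV E h x ∧ ∀ᶠ z in 𝓝 x, f z = y → k z = h z)
    {x x' : X} (hx : f x = y) (hx' : f x' = y) : k x = k x' := by
  have hcont : ContinuousOn k (f ⁻¹' {y}) := by
    intro z hz
    obtain ⟨h, h1, h2⟩ := hh z hz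
    refine (h1.continuousAt.continuousWithinAt (s := f ⁻¹' {y})).congr_of_eventuallyEq ?_
      (h2.self_of_nhds hz)
    rw [eventuallyEq_nhdsWithin_iff]
    exact h2
  obtain ⟨x₁, hx₁, hmax⟩ := hk.exists_isMaxOn ⟨x, hx⟩ hcont.norm
  have h1 : ∀ z, f z = y → k z = k x₁ := by
    intro z hz
    refine clopen_fib (P := fun z => k z = k x₁) hc ?_ ?_ hx₁ rfl hz
    · intro z hz hkz
      have hz' : f z = y := hz
      obtain ⟨h, hh1, hh2⟩ := hh z hz'
      obtain ⟨ζ, q, hζ, -, hq, hq0, hqe, hqz⟩ := exists_slice_s hf e₀ (hs z hz')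
      have hhq : HolV E h (q (ζ z)) := by rw [hq0]; exact hh1
      have h3 : ContDiffAt ℂ ω (fun v => h (q v)) (ζ z) := (slice_fderiv hq hhq).1
      have h4 : ∀ᶠ v in 𝓝 (ζ z), DifferentiableAt ℂ (fun v => h (q v)) v :=
        h3.analyticAt.eventually_analyticAt.mono fun v hv => hv.differentiableAt
      have hqt : Tendsto q (𝓝 (ζ z)) (𝓝 z) := by
        have := hq.continuousAt.tendsto
        rwa [hq0] at this
      have h5 : ∀ᶠ v in 𝓝 (ζ z), f (q v) = y ∧ h (q v) = k (q v) := by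
        filter_upwards [hqe, hqt.eventually hh2] with v h6 h7
        have h8 : f (q v) = y := h6.1.trans hz'
        exact ⟨h8, (h7 h8).symm⟩
      have h6 : IsLocalMax (norm ∘ fun v => h (q v)) (ζ z) := by
        filter_upwards [h5] with v h7
        show ‖h (q v)‖ ≤ ‖h (q (ζ z))‖
        rw [h7.2, h5.self_of_nhds.2, hq0, hkz]
        exact hmax h7.1
      have h7 := Complex.eventually_eq_of_isLocalMax_norm h4 h6
      rw [eventually_nhdsWithin_iff]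
      filter_upwards [hζ.continuousAt.eventually h7, hζ.continuousAt.eventually h5, hqz]
        with w h8 h9 h10 h11
      have h12 : q (ζ w) = w := h10 (by rw [hz']; exact h11)
      rw [← hkz]
      calc k w = h (q (ζ w)) := by rw [h9.2, h12]
        _ = h (q (ζ z)) := h8
        _ = k z := by rw [h5.self_of_nhds.2, hq0]
    · intro z hz hfr
      by_contra hne
      have h3 : ∀ᶠ w in 𝓝[f ⁻¹' {y}] z, k w ≠ k x₁ := (hcont z hz).eventually_ne hne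
      exact hfr h3
  rw [h1 x hx, h1 x' hx']

/-- The differential along the fibre depends only on the restriction to the fibre. -/
theorem dV_ker_congr {f : X → Y} (hf : ∀ x, HolM E E' f x) (e₀ : E ≃L[ℂ] (E' × (Fin d → ℂ)))
    {x : X} (hs : Function.Surjective (dM E E' f x)) {g g' : X → ℂ} (hg : HolV E g x)
    (hg' : HolV E g' x) {c : ℂ} (h : ∀ᶠ z in 𝓝 x, f z = f x → g z = c * g' z) {ξ : E}
    (hξ : dM E E' f x ξ = 0) : dV E g x ξ = c * dV E g' x ξ := by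
  obtain ⟨ζ, q, hζ, hinj, hq, hq0, hqe, hqz⟩ := exists_slice_s hf e₀ hs
  set t : (Fin d → ℂ) →L[ℂ] E := mfderiv 𝓘(ℂ, Fin d → ℂ) 𝓘(ℂ, E) q (ζ x) with ht
  have hfq : ∀ᶠ z in 𝓝 (ζ x), f (q z) = f (q (ζ x)) := by
    rw [hq0]
    exact hqe.mono fun z hz => hz.1
  have hAt : ∀ w, dM E E' f x (t w) = 0 := by
    intro w
    have := slice_ker hf hq hfq w
    rwa [hq0] at this
  have h1 : ∀ {g₁ : X → ℂ}, HolV E g₁ x → ∀ w,
      fderiv ℂ (fun v => g₁ (q v)) (ζ x) w = dV E g₁ x (t w) := by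
    intro g₁ hg₁ w
    have h2 : HolV E g₁ (q (ζ x)) := by rw [hq0]; exact hg₁
    have h3 := (slice_fderiv hq h2).2
    rw [hq0] at h3
    exact congrArg (fun L : (Fin d → ℂ) →L[ℂ] ℂ => L w) h3
  have hζq : HolV E ζ (q (ζ x)) := by rw [hq0]; exact hζ
  have h5 : ∀ w, dV E ζ x (t w) = w := by
    intro w
    have h2 := (slice_fderiv hq hζq).2
    rw [hq0] at h2
    have h3 : fderiv ℂ (fun z => ζ (q z)) (ζ x) = ContinuousLinearMap.id ℂ (Fin d → ℂ) := by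
      have : (fun z => ζ (q z)) =ᶠ[𝓝 (ζ x)] fun z => z := hqe.mono fun z hz => hz.2
      rw [this.fderiv_eq]
      exact fderiv_fun_id
    exact congrArg (fun L : (Fin d → ℂ) →L[ℂ] (Fin d → ℂ) => L w) (h2.symm.trans h3)
  have h6 : t (dV E ζ x ξ) = ξ := by
    have h7 : dM E E' f x (t (dV E ζ x ξ) - ξ) = 0 := by rw [map_sub, hAt, hξ, sub_zero]
    have h8 : dV E ζ x (t (dV E ζ x ξ) - ξ) = 0 := by rw [map_sub, h5, sub_self]
    exact sub_eq_zero.1 (hinj _ h7 h8)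
  have hqt : Tendsto q (𝓝 (ζ x)) (𝓝 x) := by
    have := hq.continuousAt.tendsto
    rwa [hq0] at this
  have h7 : (fun v => g (q v)) =ᶠ[𝓝 (ζ x)] fun v => c * g' (q v) := by
    filter_upwards [hqe, hqt.eventually h] with v h8 h9
    exact h9 h8.1
  have h8 : DifferentiableAt ℂ (fun v => g' (q v)) (ζ x) := by
    have h2 : HolV E g' (q (ζ x)) := by rw [hq0]; exact hg'
    exact ((slice_fderiv hq h2).1).differentiableAt (by simp)
  have h9 := h7.fderiv_eq (𝕜 := ℂ)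
  rw [fderiv_const_mul h8] at h9
  rw [← h6, ← h1 hg, ← h1 hg', h9]
  rfl

end Fibre

end Vale.Agent.P281.H969.TL
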