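import Vale.Agent.P281.H969.TL.Fib

/-!
# P281, project T-L (helper969), block B7: units
-/

open scoped Manifold ContDiff Topology
open Set Filter Metric Module

namespace Vale.Agent.P281.H969.TL

open Vale.Agent.P281 Vale.Agent.P281.MF Vale.Agent.P281.ISO Vale.Agent.P281.ELL
open Vale.Agent.P281.H713

set_option linter.unusedSectionVars false

section Units

variable {E E' : Type} [NormedAddCommGroup E] [NormedSpace ℂ E] [FiniteDimensional ℂ E]
  [NormedAddCommGroup E'] [NormedSpace ℂ E'] [FiniteDimensional ℂ E']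
variable {X Y : Type} [TopologicalSpace X] [ChartedSpace E X] [IsManifold 𝓘(ℂ, E) ω X]
  [TopologicalSpace Y] [ChartedSpace E' Y] [IsManifold 𝓘(ℂ, E') ω Y] {d : ℕ}

/-- the constant `1` is a local equation off the divisor -/
theorem localEq_one {D : Set X} (hD : IsClosed D) {x : X} (hx : x ∉ D) :
    J.IsLocalEq E D (fun _ => 1) x := by
  refine ⟨Dᶜ, hD.isOpen_compl, hx, fun z _ => HolV.const (1 : ℂ) z, fun z hz => ?_, ?_⟩
  · exact ⟨fun h => absurd h hz, fun h => absurd h one_ne_zero⟩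
  · rintro z ⟨h1, h2⟩
    exact absurd h1 h2

/-- A local equation is nonzero off the divisor. -/
theorem localEq_ne {D : Set X} {g : X → ℂ} {x : X} (h : J.IsLocalEq E D g x) :
    ∀ᶠ z in 𝓝 x, z ∉ D → g z ≠ 0 := by
  obtain ⟨V, hV, hxV, -, hDV, -⟩ := h
  filter_upwards [hV.mem_nhds hxV] with z hz h1 h2
  exact h1 ((hDV z hz).2 h2)

/-- A local equation is a local equation at the points nearby. -/
theorem localEq_near {D : Set X} {g : X → ℂ} {x : X} (h : J.IsLocalEq E D g x) :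
    ∀ᶠ z in 𝓝 x, J.IsLocalEq E D g z := by
  obtain ⟨V, hV, hxV, h1, h2, h3⟩ := h
  filter_upwards [hV.mem_nhds hxV] with z hz
  exact ⟨V, hV, hz, h1, h2, h3⟩

theorem IsUnitOn.at {f : X → Y} {𝒟 : Finset (Set X)} {a : Set X → ℤ} {W : Set Y} {U : X → ℂ}
    (h : IsUnitOn E f 𝒟 a W U) {y : Y} (hy : y ∈ W) : IsUnitAt E f 𝒟 a y U := by
  intro x hx e he
  obtain ⟨g, h1, h2, h3⟩ := h x (by rw [hx]; exact hy) e he
  exact ⟨g, h1, h2, h3.mono fun z hz _ => hz⟩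

theorem IsUnitOn.hol {f : X → Y} {𝒟 : Finset (Set X)} {a : Set X → ℤ} {W : Set Y} {U : X → ℂ}
    (h : IsUnitOn E f 𝒟 a W U) (h𝒟 : ∀ D ∈ 𝒟, IsClosed D) {x : X} (hx : f x ∈ W)
    (hx𝒟 : ∀ D ∈ 𝒟, x ∉ D) : HolV E U x ∧ U x ≠ 0 := by
  obtain ⟨g, h1, h2, h3⟩ := h x hx (fun _ _ => 1) fun D hD => localEq_one (h𝒟 D hD) (hx𝒟 D hD)
  have h4 : ∀ᶠ z in 𝓝 x, ∀ D ∈ 𝒟, z ∉ D :=
    (Finset.eventually_all 𝒟).2 fun D hD => (h𝒟 D hD).isOpen_compl.mem_nhds (hx𝒟 D hD)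
  have h5 : U =ᶠ[𝓝 x] g := by
    filter_upwards [h3, h4] with z h6 h7
    rw [h6 h7]
    simp
  exact ⟨h1.congr h5, by rw [h5.self_of_nhds]; exact h2⟩

theorem IsUnitAt.ne {f : X → Y} {𝒟 : Finset (Set X)} {a : Set X → ℤ} {U : X → ℂ}
    (h𝒟 : ∀ D ∈ 𝒟, IsClosed D) {x : X} (h : IsUnitAt E f 𝒟 a (f x) U)
    (hx𝒟 : ∀ D ∈ 𝒟, x ∉ D) : U x ≠ 0 := by
  obtain ⟨g, h1, h2, h3⟩ := h x rfl (fun _ _ => 1) fun D hD => localEq_one (h𝒟 D hD) (hx𝒟 D hD)
  rw [h3.self_of_nhds rfl hx𝒟]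
  simpa using h2

/-- **Uniqueness**: two units of the same fibre with the same divisor are proportional. -/
theorem unit_unique {f : X → Y} (hf : ∀ x, HolM E E' f x) (e₀ : E ≃L[ℂ] (E' × (Fin d → ℂ)))
    {y : Y} (hs : ∀ x, f x = y → Function.Surjective (dM E E' f x))
    (hc : IsPreconnected (f ⁻¹' {y})) (hk : IsCompact (f ⁻¹' {y})) {𝒟 : Finset (Set X)}
    (hD : ∀ D ∈ 𝒟, J.IsPrime E D) (hne : ∀ D ∈ 𝒟, ¬ f ⁻¹' {y} ⊆ D) {a : Set X → ℤ}
    {U U' : X → ℂ} (hU : IsUnitAt E f 𝒟 a y U) (hU' : IsUnitAt E f 𝒟 a y U') :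
    ∃ c : ℂ, c ≠ 0 ∧ ∀ z, f z = y → (∀ D ∈ 𝒟, z ∉ D) → U z = c * U' z := by
  classical
  have he : ∀ x : X, ∃ e : Set X → X → ℂ, ∀ D ∈ 𝒟, J.IsLocalEq E D (e D) x := by
    intro x
    have h1 : ∀ D, ∃ g, D ∈ 𝒟 → J.IsLocalEq E D g x := by
      intro D
      by_cases h : D ∈ 𝒟
      · obtain ⟨g, hg⟩ := (hD D h).2.1 x
        exact ⟨g, fun _ => hg⟩
      · exact ⟨fun _ => 0, fun h' => absurd h' h⟩
    choose e he using h1
    exact ⟨e, he⟩
  choose e he using he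
  have h1 : ∀ x, ∃ h : X → ℂ, f x = y → HolV E h x ∧ h x ≠ 0 ∧
      ∀ᶠ z in 𝓝 x, f z = y → (∀ D ∈ 𝒟, z ∉ D) → U z = h z * ∏ D ∈ 𝒟, e x D z ^ a D := by
    intro x
    by_cases hx : f x = y
    · obtain ⟨h, h2⟩ := hU x hx (e x) (he x)
      exact ⟨h, fun _ => h2⟩
    · exact ⟨fun _ => 0, fun h' => absurd h' hx⟩
  have h1' : ∀ x, ∃ h : X → ℂ, f x = y → HolV E h x ∧ h x ≠ 0 ∧
      ∀ᶠ z in 𝓝 x, f z = y → (∀ D ∈ 𝒟, z ∉ D) → U' z = h z * ∏ D ∈ 𝒟, e x D z ^ a D := by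
    intro x
    by_cases hx : f x = y
    · obtain ⟨h, h2⟩ := hU' x hx (e x) (he x)
      exact ⟨h, fun _ => h2⟩
    · exact ⟨fun _ => 0, fun h' => absurd h' hx⟩
  choose h hh using h1
  choose h' hh' using h1'
  have hprod : ∀ x, ∀ᶠ z in 𝓝 x, (∀ D ∈ 𝒟, z ∉ D) → ∏ D ∈ 𝒟, e x D z ^ a D ≠ 0 := by
    intro x
    have h2 : ∀ᶠ z in 𝓝 x, ∀ D ∈ 𝒟, z ∉ D → e x D z ≠ 0 :=
      (Finset.eventually_all 𝒟).2 fun D hD' => localEq_ne (he x D hD')
    filter_upwards [h2] with z h3 h4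
    exact Finset.prod_ne_zero_iff.2 fun D hD' => zpow_ne_zero _ (h3 D hD' (h4 D hD'))
  -- the quotient near `x`
  have hq : ∀ x, f x = y → ∀ᶠ z in 𝓝 x, f z = y → (∀ D ∈ 𝒟, z ∉ D) →
      U z * h' x z = U' z * h x z := by
    intro x hx
    filter_upwards [(hh x hx).2.2, (hh' x hx).2.2] with z h3 h4 h5 h6
    rw [h3 h5 h6, h4 h5 h6]
    ring
  have hU'ne : ∀ z, f z = y → (∀ D ∈ 𝒟, z ∉ D) → U' z ≠ 0 := by
    intro z hz hz𝒟
    obtain ⟨-, h3, h4⟩ := hh' z hz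
    rw [h4.self_of_nhds hz hz𝒟]
    exact mul_ne_zero h3 ((hprod z).self_of_nhds hz𝒟)
  have hquot : ∀ x, f x = y → ∀ᶠ z in 𝓝 x, f z = y → (∀ D ∈ 𝒟, z ∉ D) →
      U z / U' z = h x z / h' x z := by
    intro x hx
    filter_upwards [hq x hx, (hh' x hx).1.continuousAt.eventually_ne (hh' x hx).2.1]
      with z h3 h4 h5 h6
    rw [div_eq_div_iff (hU'ne z h5 h6) h4, h3 h5 h6, mul_comm]
  set k : X → ℂ := fun x => h x x / h' x x with hkd
  have hkq : ∀ x, f x = y → HolV E (fun z => h x z / h' x z) x := fun x hx =>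
    (hh x hx).1.div (hh' x hx).1 (hh' x hx).2.1
  have hloc : ∀ x, f x = y → ∀ᶠ z in 𝓝 x, f z = y → k z = h x z / h' x z := by
    intro x hx
    filter_upwards [eventually_eventually_nhds.2 (hquot x hx), (hkq x hx).eventually]
      with z h3 h4 h5
    have h6 := hquot z h5
    have h7 := dense_fib hf e₀ hs hc hD hne h5
    have h8 : Tendsto (fun w => h z w / h' z w - h x w / h' x w) (𝓝 z)
        (𝓝 (h z z / h' z z - h x z / h' x z)) :=
      ((hkq z h5).continuousAt.sub h4.continuousAt)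
    by_contra hne'
    have h9 : h z z / h' z z - h x z / h' x z ≠ 0 := sub_ne_zero.2 hne'
    obtain ⟨w, ⟨hw1, hw2⟩, hw3, hw4, hw5⟩ :=
      (h7.and_eventually ((h8.eventually_ne h9).and (h3.and h6))).exists
    refine hw3 ?_
    rw [← hw4 hw1 hw2, ← hw5 hw1 hw2, sub_self]
  have hconst : ∀ x x', f x = y → f x' = y → k x = k x' := fun x x' hx hx' =>
    const_fib hf e₀ hs hc hk (fun x hx => ⟨_, hkq x hx, hloc x hx⟩) hx hx'
  by_cases hx : ∃ x, f x = y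
  · obtain ⟨x, hx⟩ := hx
    refine ⟨k x, div_ne_zero (hh x hx).2.1 (hh' x hx).2.1, fun z hz hz𝒟 => ?_⟩
    have h3 := (hquot z hz).self_of_nhds hz hz𝒟
    rw [hconst x z hx hz]
    show U z = h z z / h' z z * U' z
    rw [← h3, div_mul_cancel₀ _ (hU'ne z hz hz𝒟)]
  · exact ⟨1, one_ne_zero, fun z hz => absurd ⟨z, hz⟩ hx⟩

/-- Logarithmic derivative. -/
noncomputable def dl (E : Type) [NormedAddCommGroup E] [NormedSpace ℂ E] {X : Type}
    [TopologicalSpace X] [ChartedSpace E X] (g : X → ℂ) (x : X) : E →L[ℂ] ℂ :=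
  (g x)⁻¹ • dV E g x

theorem dl_congr {g g' : X → ℂ} {x : X} (h : g =ᶠ[𝓝 x] g') : dl E g x = dl E g' x := by
  unfold dl dV
  rw [h.mfderiv_eq, h.self_of_nhds]

theorem dl_mul {g g' : X → ℂ} {x : X} (hg : HolV E g x) (hg' : HolV E g' x) (h : g x ≠ 0)
    (h' : g' x ≠ 0) : dl E (fun z => g z * g' z) x = dl E g x + dl E g' x := by
  have h1 := dV_smul hg hg'
  have h2 : dV E (fun z => g z * g' z) x = g x • dV E g' x + (dV E g x).smulRight (g' x) := h1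
  unfold dl
  rw [h2]
  ext ξ
  simp only [_root_.smul_apply, _root_.add_apply, ContinuousLinearMap.smulRight_apply,
    smul_eq_mul]
  field_simp
  ring

theorem dl_const {c : ℂ} {x : X} : dl E (fun _ : X => c) x = 0 := by
  have h : dV E (fun _ : X => c) x = 0 := mfderiv_const
  unfold dl
  rw [h, smul_zero]

theorem holV_zpow {g : X → ℂ} {x : X} (hg : HolV E g x) (h : g x ≠ 0) (n : ℤ) :
    HolV E (fun z => g z ^ n) x := by
  have h1 : ContDiffAt ℂ ω (fun w : ℂ => w ^ n) (g x) :=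
    (analyticAt_id.zpow h).contDiffAt
  exact HolV.comp_contDiff h1 hg

theorem dl_zpow {g : X → ℂ} {x : X} (hg : HolV E g x) (h : g x ≠ 0) (n : ℤ) :
    dl E (fun z => g z ^ n) x = (n : ℂ) • dl E g x := by
  have h1 : ContDiffAt ℂ ω (fun w : ℂ => w ^ n) (g x) :=
    (analyticAt_id.zpow h).contDiffAt
  have h2 := dV_comp_contDiff h1 hg
  have h3 : ∀ ξ : E, dV E (fun z => g z ^ n) x ξ = (n : ℂ) * g x ^ (n - 1) * dV E g x ξ := by
    intro ξ
    have h4 := congrArg (fun L : E →L[ℂ] ℂ => L ξ) h2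
    have h5 : fderiv ℂ (fun w : ℂ => w ^ n) (g x) (dV E g x ξ) =
        dV E g x ξ * ((n : ℂ) * g x ^ (n - 1)) := by
      have h6 := (hasDerivAt_zpow n (g x) (Or.inl h)).hasFDerivAt.fderiv
      rw [h6]
      simp [mul_comm]
    have h7 : dV E (fun z => g z ^ n) x ξ = fderiv ℂ (fun w : ℂ => w ^ n) (g x) (dV E g x ξ) := h4
    rw [h7, h5]
    ring
  ext ξ
  show (g x ^ n)⁻¹ * dV E (fun z => g z ^ n) x ξ = (n : ℂ) * ((g x)⁻¹ * dV E g x ξ)
  rw [h3, zpow_sub_one₀ h]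
  field_simp

theorem holV_fprod {ι : Type} {g : ι → X → ℂ} {x : X} (s : Finset ι)
    (hg : ∀ i ∈ s, HolV E (g i) x) : HolV E (fun z => ∏ i ∈ s, g i z) x := by
  classical
  induction s using Finset.induction_on with
  | empty => simpa using HolV.const (1 : ℂ) x
  | insert i s hi ih =>
    have h1 : (fun z => ∏ j ∈ insert i s, g j z) = fun z => g i z * ∏ j ∈ s, g j z := by
      ext z
      rw [Finset.prod_insert hi]
    rw [h1]
    exact (hg i (Finset.mem_insert_self i s)).mul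
      (ih fun j hj => hg j (Finset.mem_insert_of_mem hj))

theorem dl_fprod {ι : Type} {g : ι → X → ℂ} {x : X} (s : Finset ι)
    (hg : ∀ i ∈ s, HolV E (g i) x) (hne : ∀ i ∈ s, g i x ≠ 0) :
    dl E (fun z => ∏ i ∈ s, g i z) x = ∑ i ∈ s, dl E (g i) x := by
  classical
  induction s using Finset.induction_on with
  | empty =>
    simp only [Finset.prod_empty, Finset.sum_empty]
    exact dl_const
  | insert i s hi ih =>
    have h1 : (fun z => ∏ j ∈ insert i s, g j z) = fun z => g i z * ∏ j ∈ s, g j z := by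
      ext z
      rw [Finset.prod_insert hi]
    rw [h1, Finset.sum_insert hi]
    have h2 := holV_fprod s fun j hj => hg j (Finset.mem_insert_of_mem hj)
    rw [dl_mul (hg i (Finset.mem_insert_self i s)) h2 (hne i (Finset.mem_insert_self i s))
      (Finset.prod_ne_zero_iff.2 fun j hj => hne j (Finset.mem_insert_of_mem hj)),
      ih (fun j hj => hg j (Finset.mem_insert_of_mem hj))
        fun j hj => hne j (Finset.mem_insert_of_mem hj)]

end Units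

end Vale.Agent.P281.H969.TL
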