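import Vale.Agent.P281.H969.TL.Core
import Vale.Agent.P281.H383.U.Main
import Vale.Agent.P281.H383.U.Tame
import Vale.Agent.P281.H364.TD.D8
import Vale.Agent.P281.H83.TL.Bound
import Vale.Agent.P281.H83.TL.Nrm
import Vale.Agent.P281.H165.L.Sheet
import Vale.Agent.P281.H189.En
import Vale.Agent.P281.H125.L.Green
import Vale.Agent.P281.H167.Hess
import Vale.Agent.P281.H225.TL.Vol
import Vale.Agent.P281.H511.TL.VolF
import Vale.Agent.P281.H68.TL.Har
import Vale.Agent.P281.H740.TL.FibL
import Vale.Agent.P281.H64.TK.All
import Vale.Agent.P281.H389.TL.Fam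

/-!
# P281, project T-L (helper969): everything plugged
-/

open Set Filter Metric Vale.Agent.P281 Vale.Agent.P281.H713
open scoped Topology ContDiff Manifold

noncomputable section

namespace Vale.Agent.P281.H969.TL

theorem crit : H64.Gen.CritStmt := H364.crit H150.Gen.img

theorem en : EnStmt := H189.en_of H125.L.green H167.hessStmt

/-- the bounds -/
theorem bound : BoundStmt :=
  H83.TL.bound_of H64.TK.inputs (H225.TL.vol_of H64.TK.inputs H511.TL.volF)
    (H165.L.sheetBound en)

theorem har : HarStmt := H68.TL.harStmt_of H83.TL.nrm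

theorem famU : FamUStmt := H389.TL.famU har

/-- **T-L** -/
theorem tl : TLStmt :=
  tl_of crit H383.Gen.compl H364.TD.fibIn H383.U.liftT H383.U.tameOK H740.fibLStmt famU bound

end Vale.Agent.P281.H969.TL
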