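import Vale.Agent.P281.H969.TL.HasL
import Vale.Agent.P281.H713.SA.G5

/-!
# P281, project T-L (helper969), block B8: the rank of the logarithmic Gauss map is open
-/

open scoped Manifold ContDiff Topology
open Set Filter Metric Module

namespace Vale.Agent.P281.H969.TL

open Vale.Agent.P281 Vale.Agent.P281.MF Vale.Agent.P281.ISO Vale.Agent.P281.ELL
open Vale.Agent.P281.H713 Vale.Agent.P281.H64.TU Vale.Agent.P272.K

set_option linter.unusedSectionVars false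

section Surj

variable {E E' V : Type} [NormedAddCommGroup E] [NormedSpace ℂ E] [FiniteDimensional ℂ E]
  [NormedAddCommGroup E'] [NormedSpace ℂ E'] [FiniteDimensional ℂ E']
  [NormedAddCommGroup V] [NormedSpace ℂ V] [FiniteDimensional ℂ V]

/-- Surjectivity is an open condition. -/
theorem surj_open {Z : Type} [TopologicalSpace Z] {M : Z → (E →L[ℂ] V)} {z : Z}
    (hM : ContinuousAt M z) (h : Function.Surjective (M z)) :
    ∀ᶠ w in 𝓝 z, Function.Surjective (M w) := by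
  obtain ⟨B, hB⟩ := (M z : E →ₗ[ℂ] V).exists_rightInverse_of_surjective
    (LinearMap.range_eq_top.2 h)
  set B' : V →L[ℂ] E := LinearMap.toContinuousLinearMap B with hB'
  have h1 : ContinuousAt (fun w => ((M w).comp B').det) z := by
    have h2 : ContinuousAt (fun w => (M w).comp B') z := hM.clm_comp continuousAt_const
    exact (contDiff_det (V := V)).continuous.continuousAt.comp h2
  have h3 : ((M z).comp B').det ≠ 0 := by
    have h4 : (M z).comp B' = ContinuousLinearMap.id ℂ V := by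
      ext v
      exact LinearMap.congr_fun hB v
    rw [h4]
    simp [ContinuousLinearMap.det]
  filter_upwards [h1.eventually_ne h3] with w hw v
  have h4 : IsUnit (LinearMap.det (((M w).comp B' : V →L[ℂ] V) : V →ₗ[ℂ] V)) :=
    isUnit_iff_ne_zero.2 hw
  have h5 := (LinearMap.isUnit_iff_range_eq_top _).1 ((LinearMap.isUnit_iff_isUnit_det _).2 h4)
  have h6 : v ∈ LinearMap.range (((M w).comp B' : V →L[ℂ] V) : V →ₗ[ℂ] V) := by
    rw [h5]
    trivial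
  obtain ⟨u, hu⟩ := h6
  exact ⟨B' u, hu⟩

/-- Independence on the kernel. -/
theorem surj_prod_iff {r : ℕ} {A : E →L[ℂ] E'} (hA : Function.Surjective A)
    {P : E →L[ℂ] (Fin r → ℂ)} : Function.Surjective (A.prod P) ↔
      ∀ c : Fin r → ℂ, (∀ ξ, A ξ = 0 → ∑ k, c k * P ξ k = 0) → ∀ k, c k = 0 := by
  constructor
  · intro h c hc k
    obtain ⟨ξ, hξ⟩ := h (0, Pi.single k 1)
    have h1 := hc ξ (Prod.mk.inj hξ).1
    have h2 : P ξ = Pi.single k 1 := (Prod.mk.inj hξ).2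
    rw [h2] at h1
    simpa [Pi.single_apply] using h1
  · intro h
    have h1 : Submodule.map (P : E →ₗ[ℂ] (Fin r → ℂ)) (LinearMap.ker (A : E →ₗ[ℂ] E')) = ⊤ := by
      by_contra hne
      obtain ⟨φ, hφ0, hφ⟩ := Submodule.exists_le_ker_of_lt_top _ (lt_top_iff_ne_top.2 hne)
      apply hφ0
      have h2 : ∀ v : Fin r → ℂ, φ v = ∑ k, φ (Pi.single k 1) * v k := by
        intro v
        conv_lhs => rw [← Finset.univ_sum_single v]
        rw [map_sum]
        refine Finset.sum_congr rfl fun k _ => ?_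
        have h3 : (Pi.single k (v k) : Fin r → ℂ) = v k • Pi.single k 1 := by
          rw [← Pi.single_smul, smul_eq_mul, mul_one]
        rw [h3, map_smul, smul_eq_mul, mul_comm]
      have h3 := h (fun k => φ (Pi.single k 1)) fun ξ hξ => by
        rw [← h2]
        have h4 : P ξ ∈ Submodule.map (P : E →ₗ[ℂ] (Fin r → ℂ))
            (LinearMap.ker (A : E →ₗ[ℂ] E')) := ⟨ξ, hξ, rfl⟩
        exact hφ h4
      ext v
      rw [LinearMap.comp_apply, LinearMap.zero_comp]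
      simp only [LinearMap.coe_single]
      rw [h3]
      rfl
    rintro ⟨a, v⟩
    obtain ⟨ξ, rfl⟩ := hA a
    have h2 : v - P ξ ∈ Submodule.map (P : E →ₗ[ℂ] (Fin r → ℂ))
        (LinearMap.ker (A : E →ₗ[ℂ] E')) := by
      rw [h1]
      trivial
    obtain ⟨η, hη1, hη2⟩ := h2
    have h3 : A η = 0 := hη1
    have h4 : P η = v - P ξ := hη2
    refine ⟨ξ + η, Prod.ext ?_ ?_⟩
    · show A (ξ + η) = A ξ
      rw [map_add, h3, add_zero]
    · show P (ξ + η) = v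
      rw [map_add, h4, add_sub_cancel]

variable {X Y : Type} [TopologicalSpace X] [ChartedSpace E X] [IsManifold 𝓘(ℂ, E) ω X]
  [TopologicalSpace Y] [ChartedSpace E' Y] [IsManifold 𝓘(ℂ, E') ω Y]

/-- The differential in the charts. -/
theorem surj_eventually {f : X → Y} (hf : ∀ x, HolM E E' f x) {Φ : X → V} {x : X}
    (hΦ : HolV E Φ x) (h : Function.Surjective ((dM E E' f x).prod (dV E Φ x))) :
    ∀ᶠ z in 𝓝 x, Function.Surjective ((dM E E' f z).prod (dV E Φ z)) := by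
  set φ := chartAt E x with hφ
  set ψ := chartAt E' (f x) with hψ
  have hxs : x ∈ φ.source := mem_chart_source E x
  have hys : f x ∈ ψ.source := mem_chart_source E' (f x)
  let A₁ : X → E' := fun x => ψ (f x)
  have hA₁ : HolV E A₁ x := HolV.comp (h := (ψ : Y → E')) (HolV.chart hys) (hf x)
  let A : X → (E →L[ℂ] E') := fun z => fderiv ℂ (A₁ ∘ φ.symm) (φ z)
  let P : X → (E →L[ℂ] V) := fun z => fderiv ℂ (Φ ∘ φ.symm) (φ z)
  have hA : HolV E A x := by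
    refine HolV.comp_contDiff (G := fderiv ℂ (A₁ ∘ φ.symm)) ?_ (HolV.chart hxs)
    exact (hA₁.rep hxs).fderiv_right (by simp)
  have hP : HolV E P x := by
    refine HolV.comp_contDiff (G := fderiv ℂ (Φ ∘ φ.symm)) ?_ (HolV.chart hxs)
    exact (hΦ.rep hxs).fderiv_right (by simp)
  have hrel : ∀ z ∈ φ.source, f z ∈ ψ.source → HolV E A₁ z → HolV E Φ z →
      (∀ ξ, dV E' (ψ : Y → E') (f z) (dM E E' f z ξ) = A z (dV E (φ : X → E) z ξ)) ∧
      ∀ ξ, dV E Φ z ξ = P z (dV E (φ : X → E) z ξ) := by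
    intro z h1 h2 h3 h4
    have h9 := dV_comp (h := (ψ : Y → E')) (HolV.chart h2) (hf z)
    have h10 : dV E A₁ z = (A z).comp (dV E (φ : X → E) z) := dV_eq_chart h1 h3
    have h11 : dV E Φ z = (P z).comp (dV E (φ : X → E) z) := dV_eq_chart h1 h4
    refine ⟨fun ξ => ?_, fun ξ => ?_⟩
    · have h12 : dV E' (ψ : Y → E') (f z) (dM E E' f z ξ) = dV E A₁ z ξ :=
        (congrArg (fun L : E →L[ℂ] E' => L ξ) h9).symm
      rw [h12, h10]
      rfl
    · rw [h11]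
      rfl
  have hM : ContinuousAt (fun z => (A z).prod (P z)) x := by
    have h1 : ContinuousAt (fun z => (A z, P z)) x := hA.continuousAt.prodMk hP.continuousAt
    have h2 : Continuous fun q : (E →L[ℂ] E') × (E →L[ℂ] V) => q.1.prod q.2 :=
      (ContinuousLinearMap.prodₗᵢ ℂ :
        ((E →L[ℂ] E') × (E →L[ℂ] V)) ≃ₗᵢ[ℂ] (E →L[ℂ] (E' × V))).continuous
    exact h2.continuousAt.comp h1
  have hMx : Function.Surjective ((A x).prod (P x)) := by
    rintro ⟨a, v⟩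
    obtain ⟨a', rfl⟩ := dV_chart_surj (E := E') hys a
    obtain ⟨ξ, hξ⟩ := h (a', v)
    obtain ⟨h1, h2⟩ := hrel x hxs hys hA₁ hΦ
    refine ⟨dV E (φ : X → E) x ξ, Prod.ext ?_ ?_⟩
    · show A x (dV E (φ : X → E) x ξ) = _
      rw [← h1, show dM E E' f x ξ = a' from (Prod.mk.inj hξ).1]
    · show P x (dV E (φ : X → E) x ξ) = _
      rw [← h2, show dV E Φ x ξ = v from (Prod.mk.inj hξ).2]
  filter_upwards [surj_open hM hMx, hA₁.eventually, hΦ.eventually, φ.open_source.mem_nhds hxs,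
    (hf x).continuousAt.eventually (ψ.open_source.mem_nhds hys)] with z h1 h2 h3 h4 h5
  obtain ⟨h6, h7⟩ := hrel z h4 h5 h2 h3
  rintro ⟨a, v⟩
  obtain ⟨η, hη⟩ := h1 (dV E' (ψ : Y → E') (f z) a, v)
  obtain ⟨ξ, rfl⟩ := dV_chart_surj (E := E) h4 η
  refine ⟨ξ, Prod.ext ?_ ?_⟩
  · have h8 : A z (dV E (φ : X → E) z ξ) = dV E' (ψ : Y → E') (f z) a := (Prod.mk.inj hη).1
    rw [← h6] at h8
    obtain ⟨A₂, hA₂⟩ := dV_chart_leftInv (E := E') h5
    have h9 : ∀ b, A₂ (dV E' (ψ : Y → E') (f z) b) = b := fun b =>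
      congrArg (fun L : E' →L[ℂ] E' => L b) hA₂
    show dM E E' f z ξ = a
    rw [← h9 (dM E E' f z ξ), h8, h9]
  · show dV E Φ z ξ = v
    rw [h7]
    exact (Prod.mk.inj hη).2

/-- The quotients as a map. -/
theorem rk_surj {f : X → Y} {r : ℕ} {Θ : Fin (r + 1) → X → ℂ} {x : X}
    (hs : Function.Surjective (dM E E' f x)) (hh : ∀ s, HolV E (fun z => Θ s z / Θ 0 z) x) :
    (∀ c : Fin r → ℂ, (∀ ξ, dM E E' f x ξ = 0 →
      ∑ k, c k * dif E (fun z => Θ k.succ z / Θ 0 z) x ξ = 0) → ∀ k, c k = 0) ↔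
    Function.Surjective ((dM E E' f x).prod
      (dV E (vec fun (k : Fin r) z => Θ k.succ z / Θ 0 z) x)) := by
  rw [surj_prod_iff hs]
  have h1 : ∀ ξ k, dV E (vec fun (k : Fin r) z => Θ k.succ z / Θ 0 z) x ξ k =
      dif E (fun z => Θ k.succ z / Θ 0 z) x ξ := fun ξ k => dV_vec (fun k => hh k.succ) ξ k
  simp only [h1]

/-- The rank is an open condition. -/
theorem RKAt.near {f : X → Y} (hf : ∀ x, HolM E E' f x) {r : ℕ} {Θ : Fin (r + 1) → X → ℂ}
    {x : X} (hs : Function.Surjective (dM E E' f x)) (h : RKAt E E' f Θ x) :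
    ∀ᶠ z in 𝓝 x, RKAt E E' f Θ z := by
  obtain ⟨h1, h2, h3⟩ := h
  have h4 := surj_eventually hf (holV_vec fun k : Fin r => h2 k.succ) ((rk_surj hs h2).1 h3)
  filter_upwards [eventually_eventually_nhds.2 h1, eventually_all.2 fun s => (h2 s).eventually,
    h4] with z h5 h6 h7
  have h8 : Function.Surjective (dM E E' f z) := by
    intro a
    obtain ⟨ξ, hξ⟩ := h7 (a, 0)
    exact ⟨ξ, (Prod.mk.inj hξ).1⟩
  exact ⟨h5, h6, (rk_surj h8 h6).2 h7⟩

end Surj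

section Rk

variable {n p d r : ℕ} {X Y : Type} [TopologicalSpace X] [ChartedSpace (Cm n) X]
  [IsManifold 𝓘(ℂ, Cm n) ω X] [TopologicalSpace Y] [ChartedSpace (Cm p) Y]
  [IsManifold 𝓘(ℂ, Cm p) ω Y] {f : X → Y} {S : Set Y} {𝒟 : Finset (Set X)}

/-- From the forms of the family to the fibre. -/
theorem LFam.lrank_of_rk (hL : LFam (Cm n) (Cm p) f S 𝒟)
    (e₀ : Cm n ≃L[ℂ] (Cm p × (Fin d → ℂ)))
    {a : Fin (r + 1) → Fin d → Set X → ℤ} {W : Fin (r + 1) → Fin d → Y → Set Y}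
    {U : Fin (r + 1) → Fin d → Y → X → ℂ}
    (hU : ∀ s b, ∀ y ∉ S, IsOpen (W s b y) ∧ y ∈ W s b y ∧
      IsUnitOn (Cm n) f 𝒟 (a s b) (W s b y) (U s b y))
    {x : X} (hx : f x ∉ S) (hx𝒟 : ∀ D ∈ 𝒟, x ∉ D)
    (h : RKAt (Cm n) (Cm p) f (fun s => theta (Cm n) (Cm p) f e₀ (U s)) x) :
    LRankAt (n := n) d f 𝒟 a (f x) := by
  classical
  have hf := hL.hol
  obtain ⟨h1, h2, h3⟩ := h
  have h𝒟c : ∀ D ∈ 𝒟, IsClosed D := fun D hD => (hL.prime D hD).1
  obtain ⟨ζ, q, hζ, hinj, hq, hq0, hqe, hqz⟩ := exists_slice_s hf e₀ (hL.sub x hx)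
  set v₀ := ζ x with hv₀
  have hqt : Tendsto q (𝓝 v₀) (𝓝 x) := by
    have := hq.continuousAt.tendsto
    rwa [hq0] at this
  have hq' : ∀ᶠ v in 𝓝 v₀, ContMDiffAt 𝓘(ℂ, Fin d → ℂ) 𝓘(ℂ, Cm n) ω q v :=
    (contMDiffAt_iff_contMDiffAt_nhds (by simp)).1 hq
  have hgood : ∀ᶠ v in 𝓝 v₀, ContMDiffAt 𝓘(ℂ, Fin d → ℂ) 𝓘(ℂ, Cm n) ω q v ∧
      f (q v) = f x ∧ ζ (q v) = v ∧ HolV (Cm n) ζ (q v) ∧ ∀ D ∈ 𝒟, q v ∉ D := by
    filter_upwards [hq', hqe, hqt.eventually hζ.eventually, hqt.eventually (hL.off hx𝒟)]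
      with v h4 h5 h6 h7 using ⟨h4, h5.1, h5.2, h6, h7⟩
  -- the values along the slice
  have hval : ∀ᶠ v in 𝓝 v₀, ∀ s, theta (Cm n) (Cm p) f e₀ (U s) (q v) =
      lcoef (fun b v => U s b (f x) (q v)) v *
        JP e₀ (dM (Cm n) (Cm p) f (q v)) (dV (Cm n) ζ (q v)) := by
    filter_upwards [eventually_eventually_nhds.2 hgood] with v hv s
    obtain ⟨h4, h5, h6, h7, h8⟩ := hv.self_of_nhds
    have h9 : ∀ᶠ z in 𝓝 v, f (q z) = f (q v) := by
      filter_upwards [hv] with z hz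
      rw [hz.2.1, h5]
    have h10 : (dV (Cm n) ζ (q v)).comp
        (mfderiv 𝓘(ℂ, Fin d → ℂ) 𝓘(ℂ, Cm n) q v : (Fin d → ℂ) →L[ℂ] Cm n) =
        ContinuousLinearMap.id ℂ (Fin d → ℂ) := by
      rw [← (slice_fderiv h4 h7).2]
      have h11 : (fun z => ζ (q z)) =ᶠ[𝓝 v] fun z => z := hv.mono fun z hz => hz.2.2.1
      rw [h11.fderiv_eq]
      exact fderiv_fun_id
    rw [hL.theta_slice e₀ (a := a s) (W := W s) (U := U s) (fun b y hy => hU s b y hy) h4 h9 h5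
      hx h8 h10, lrow_det]
  have hJ : ∀ᶠ v in 𝓝 v₀, JP e₀ (dM (Cm n) (Cm p) f (q v)) (dV (Cm n) ζ (q v)) ≠ 0 := by
    filter_upwards [hval, hqt.eventually h1] with v h4 h5 h6
    refine h5 ?_
    rw [h4 0, h6, mul_zero]
  have hxx : f (q v₀) = f x := by rw [hq0]
  refine ⟨fun s b => U s b (f x), fun s b => (hU s b _ hx).2.2.at (hU s b _ hx).2.1, q, v₀, hq,
    hqe.mono fun v hv => hv.1, fun D hD => by rw [hq0]; exact hx𝒟 D hD, ?_, ?_⟩
  · intro h0
    have h4 := hval.self_of_nhds 0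
    rw [h0, zero_mul, hq0] at h4
    exact h1.self_of_nhds h4
  · have h4 : ∀ k : Fin r, (fun v => lcoef (fun b v => U k.succ b (f x) (q v)) v /
        lcoef (fun b v => U 0 b (f x) (q v)) v) =ᶠ[𝓝 v₀]
        fun v => theta (Cm n) (Cm p) f e₀ (U k.succ) (q v) /
          theta (Cm n) (Cm p) f e₀ (U 0) (q v) := by
      intro k
      filter_upwards [hval, hJ] with v h6 h7
      rw [h6, h6, mul_div_mul_right _ _ h7]
    have hs := (rk_surj (hL.sub x hx) h2).1 h3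
    intro c
    obtain ⟨ξ, hξ⟩ := hs (0, c)
    have hξ1 : dM (Cm n) (Cm p) f x ξ = 0 := (Prod.mk.inj hξ).1
    have hξ2 : dV (Cm n) (vec fun (k : Fin r) z => theta (Cm n) (Cm p) f e₀ (U k.succ) z /
        theta (Cm n) (Cm p) f e₀ (U 0) z) x ξ = c := (Prod.mk.inj hξ).2
    set t : (Fin d → ℂ) →L[ℂ] Cm n := mfderiv 𝓘(ℂ, Fin d → ℂ) 𝓘(ℂ, Cm n) q v₀ with ht
    have hfq : ∀ᶠ z in 𝓝 v₀, f (q z) = f (q v₀) := by
      rw [hq0]
      exact hqe.mono fun z hz => hz.1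
    have hAt : ∀ w, dM (Cm n) (Cm p) f x (t w) = 0 := by
      intro w
      have := slice_ker hf hq hfq w
      rwa [hq0] at this
    have hPt : ∀ w, dV (Cm n) ζ x (t w) = w := by
      intro w
      have hζq : HolV (Cm n) ζ (q v₀) := by rw [hq0]; exact hζ
      have h5 := (slice_fderiv hq hζq).2
      rw [hq0] at h5
      have h6 : fderiv ℂ (fun z => ζ (q z)) v₀ = ContinuousLinearMap.id ℂ (Fin d → ℂ) := by
        have : (fun z => ζ (q z)) =ᶠ[𝓝 v₀] fun z => z := hqe.mono fun z hz => hz.2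
        rw [this.fderiv_eq]
        exact fderiv_fun_id
      exact congrArg (fun L : (Fin d → ℂ) →L[ℂ] (Fin d → ℂ) => L w) (h5.symm.trans h6)
    have h5 : t (dV (Cm n) ζ x ξ) = ξ := frame_ker e₀ (hL.sub x hx) hAt hPt hξ1
    refine ⟨dV (Cm n) ζ x ξ, ?_⟩
    funext k
    have h6 : HolV (Cm n) (fun z => theta (Cm n) (Cm p) f e₀ (U k.succ) z /
        theta (Cm n) (Cm p) f e₀ (U 0) z) (q v₀) := by
      rw [hq0]
      exact h2 k.succ
    have h7 := (slice_fderiv hq h6).2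
    have h8 := (h4 k).fderiv_eq (𝕜 := ℂ)
    rw [h7, hq0] at h8
    have h9 : fderiv ℂ (fun v => lcoef (fun b v => U k.succ b (f x) (q v)) v /
        lcoef (fun b v => U 0 b (f x) (q v)) v) v₀ (dV (Cm n) ζ x ξ) =
        dV (Cm n) (fun z => theta (Cm n) (Cm p) f e₀ (U k.succ) z /
          theta (Cm n) (Cm p) f e₀ (U 0) z) x (t (dV (Cm n) ζ x ξ)) :=
      congrArg (fun L : (Fin d → ℂ) →L[ℂ] ℂ => L (dV (Cm n) ζ x ξ)) h8
    show fderiv ℂ (fun v => lcoef (fun b v => U k.succ b (f x) (q v)) v /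
        lcoef (fun b v => U 0 b (f x) (q v)) v) v₀ (dV (Cm n) ζ x ξ) = c k
    rw [h9, h5, ← hξ2]
    exact (dV_vec (fun k => h2 k.succ) ξ k).symm

/-- **The rank is open in `Y`.** -/
theorem LFam.rank_open (hL : LFam (Cm n) (Cm p) f S 𝒟)
    (e₀ : Cm n ≃L[ℂ] (Cm p × (Fin d → ℂ)))
    {a : Fin (r + 1) → Fin d → Set X → ℤ}
    (hfam : ∀ s b, ∀ y₀ ∉ S, ∃ (W : Set Y) (U : X → ℂ), IsOpen W ∧ y₀ ∈ W ∧
      IsUnitOn (Cm n) f 𝒟 (a s b) W U) {y : Y} (hy : y ∉ S)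
    (h : LRankAt (n := n) d f 𝒟 a y) : ∀ᶠ y' in 𝓝 y, LRankAt (n := n) d f 𝒟 a y' := by
  classical
  have h0 : ∀ s b, ∃ (W : Set Y) (U : X → ℂ), IsOpen W ∧ y ∈ W ∧
      IsUnitOn (Cm n) f 𝒟 (a s b) W U := fun s b => hfam s b y hy
  choose W U hW hyW hU using h0
  set W₀ : Set Y := Sᶜ ∩ ⋂ s, ⋂ b, W s b with hW₀
  have hW₀o : IsOpen W₀ := by
    refine hL.closed.isOpen_compl.inter ?_
    exact isOpen_iInter_of_finite fun s => isOpen_iInter_of_finite fun b => hW s b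
  have hyW₀ : y ∈ W₀ := ⟨hy, mem_iInter.2 fun s => mem_iInter.2 fun b => hyW s b⟩
  have hmem : ∀ y', y' ∉ W₀ᶜ → y' ∉ S ∧ ∀ s b, y' ∈ W s b := by
    intro y' hy'
    have h1 : y' ∈ W₀ := not_not.1 hy'
    exact ⟨h1.1, fun s b => mem_iInter.1 (mem_iInter.1 h1.2 s) b⟩
  have hL' : LFam (Cm n) (Cm p) f W₀ᶜ 𝒟 :=
    { hol := hL.hol
      closed := hW₀o.isClosed_compl
      sub := fun x hx => hL.sub x (hmem _ hx).1
      conn := fun y hy => hL.conn y (hmem _ hy).1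
      cpt := fun y hy => hL.cpt y (hmem _ hy).1
      prime := hL.prime
      not_sub := fun D hD y hy => hL.not_sub D hD y (hmem _ hy).1 }
  have hU' : ∀ s b, ∀ y' ∉ W₀ᶜ, IsOpen (W s b) ∧ y' ∈ W s b ∧
      IsUnitOn (Cm n) f 𝒟 (a s b) (W s b) (U s b) := fun s b y' hy' =>
    ⟨hW s b, (hmem y' hy').2 s b, hU s b⟩
  obtain ⟨x₁, hfx₁, hx₁, hrk⟩ := hL'.rk_of e₀ (W := fun s b _ => W s b)
    (U := fun s b _ => U s b) hU' (fun h1 => h1 hyW₀) h
  have h1 : ∀ᶠ x in 𝓝 x₁, LRankAt (n := n) d f 𝒟 a (f x) := by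
    have h2 : f x₁ ∈ W₀ := by rw [hfx₁]; exact hyW₀
    filter_upwards [hrk.near hL.hol (hL.sub x₁ (by rw [hfx₁]; exact hy)), hL.off hx₁,
      (hL.hol x₁).continuousAt.eventually (hW₀o.mem_nhds h2)] with x h3 h4 h5
    exact hL'.lrank_of_rk e₀ (W := fun s b _ => W s b) (U := fun s b _ => U s b) hU'
      (fun h6 => h6 h5) h4 h3
  have h2 := H713.SA.nhds_le_map (hL.hol x₁) (hL.sub x₁ (by rw [hfx₁]; exact hy))
  rw [hfx₁] at h2
  exact h2 h1

end Rk

end Vale.Agent.P281.H969.TL
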