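import Vale.Agent.P281.H969.TL.Rank
import Vale.Agent.P281.H64.TD.SpecB
import Vale.Agent.P281.H64.TK.Fin
import Vale.Agent.P281.H303.UF.Core

/-!
# P281, project T-L (helper969), block B8: the assembly
-/

open Set Filter Metric Vale.Agent.P281 Vale.Agent.P281.H713
open Vale.Agent.P272.K (Chart IsKahler IsHermitian Cm)
open Vale.Agent.P281.MF Vale.Agent.P281.ISO
open Vale.Agent.P281.H713.TZ
open Vale.Agent.P281.H64.Gen (IsSmallSet NoExc CritStmt ComplStmt)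
open Vale.Agent.P281.H64.Thin (IsThinSet)
open Vale.Agent.P281.H64.TU (Tame KTame RelFormT HasFormsT)
open scoped Topology ContDiff Manifold

set_option linter.all false

noncomputable section

namespace Vale.Agent.P281.H969.TL

section Mono

variable {E E' E₀ : Type} [NormedAddCommGroup E] [NormedSpace ℂ E] [FiniteDimensional ℂ E]
  [NormedAddCommGroup E'] [NormedSpace ℂ E'] [FiniteDimensional ℂ E']
  [NormedAddCommGroup E₀] [NormedSpace ℂ E₀] [FiniteDimensional ℂ E₀]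
variable {X Y : Type} [TopologicalSpace X] [ChartedSpace E X] [IsManifold 𝓘(ℂ, E) ω X]
  [TopologicalSpace Y] [ChartedSpace E' Y] [IsManifold 𝓘(ℂ, E') ω Y]

theorem relForm_mono {T : Tame E₀ X} {f : X → Y} {S S' : Set Y} (h : S ⊆ S')
    {e₀ : E ≃L[ℂ] (E' × E₀)} {N : ℕ} {𝒜 : Set (Set X)} {κ₀ : Set X → ℕ} {Θ : X → ℂ}
    (hR : RelFormT T f S e₀ N 𝒜 κ₀ Θ) : RelFormT T f S' e₀ N 𝒜 κ₀ Θ := by
  refine ⟨fun x₀ x y₀ hx => hR.hol x₀ x y₀ fun hx' => hx (h hx'), fun r K hr hK => ?_⟩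
  obtain ⟨C, hC⟩ := hR.bound r K hr hK
  exact ⟨C, fun v₀ Q h1 h2 h3 h4 => hC v₀ Q h1 h2 h3 fun h5 => h4 (h h5)⟩

theorem hasForms_mono {T : Tame E₀ X} {f : X → Y} {S S' : Set Y} (h : S ⊆ S')
    {e₀ : E ≃L[ℂ] (E' × E₀)} {Δ : Set X → ℝ} {r : ℕ} {y : Y} (hR : HasFormsT T f S e₀ Δ r y) :
    HasFormsT T f S' e₀ Δ r y := by
  obtain ⟨N, 𝒜, κ₀, Θ, Ξ, h1, h2, h3, h4, h5, h6⟩ := hR
  exact ⟨N, 𝒜, κ₀, Θ, Ξ, h1, h2, h3, relForm_mono h h4, fun b => relForm_mono h (h5 b), h6⟩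

end Mono

/-- all the prime divisors of a finite set -/
theorem fibIn_fin (fi : H64.TD.FibInStmt) {p d : ℕ} {X Y : Type} [TopologicalSpace X] [T2Space X]
    [CompactSpace X] [ConnectedSpace X]
    [ChartedSpace (Cm (p + d)) X] [IsManifold 𝓘(ℂ, Cm (p + d)) ω X] [TopologicalSpace Y]
    [T2Space Y] [ChartedSpace (Cm p) Y] [IsManifold 𝓘(ℂ, Cm p) ω Y] {f : X → Y} {S : Set Y}
    (hd : 0 < d) (hf : ContMDiff 𝓘(ℂ, Cm (p + d)) 𝓘(ℂ, Cm p) ω f)
    (hP : ∀ S', S ⊆ S' → IsClosed S' → H64.IsProperFibration (n := p + d) (p := p) f S')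
    (hS : IsSmallSet (Cm p) S) (𝒜 : Finset (Set X))
    (h𝒜 : ∀ D ∈ 𝒜, J.IsPrime (Cm (p + d)) D) : ∃ S' : Set Y, S ⊆ S' ∧ IsSmallSet (Cm p) S' ∧
      ∀ D ∈ 𝒜, ∀ y ∉ S', ¬ f ⁻¹' {y} ⊆ D := by
  classical
  induction 𝒜 using Finset.induction_on with
  | empty => exact ⟨S, subset_rfl, hS, fun D hD => absurd hD (Finset.notMem_empty D)⟩
  | insert D 𝒜 hD ih =>
    obtain ⟨S₁, h1, h2, h3⟩ := ih fun D' hD' => h𝒜 D' (Finset.mem_insert_of_mem hD')
    obtain ⟨S₂, h4, h5, h6⟩ := fi p d X Y f S₁ D hd hf (hP S₁ h1 h2.1) h2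
      (h𝒜 D (Finset.mem_insert_self _ _))
    refine ⟨S₂, h1.trans h4, h5, fun D' hD' y hy => ?_⟩
    rcases Finset.mem_insert.1 hD' with rfl | hD'
    · exact h6 y hy
    · exact h3 D' hD' y fun h7 => hy (h4 h7)

/-- two sequences of sets -/
theorem two_seq {p : ℕ} {Y : Type} [TopologicalSpace Y] [ChartedSpace (Cm p) Y] {H H' : ℕ → Set Y}
    (h : ∀ k, IsThinSet (Cm p) (H k)) (h' : ∀ k, IsThinSet (Cm p) (H' k)) :
    ∃ H'' : ℕ → Set Y, (∀ k, IsThinSet (Cm p) (H'' k)) ∧ (⋃ k, H k) ∪ (⋃ k, H' k) ⊆ ⋃ k, H'' k := by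
  refine ⟨fun k => if k % 2 = 0 then H (k / 2) else H' (k / 2), fun k => ?_, ?_⟩
  · dsimp only
    split_ifs
    · exact h _
    · exact h' _
  · rintro y (hy | hy)
    · obtain ⟨k, hk⟩ := mem_iUnion.1 hy
      refine mem_iUnion.2 ⟨2 * k, ?_⟩
      have h1 : 2 * k % 2 = 0 := by omega
      have h2 : 2 * k / 2 = k := by omega
      simp only [h1, h2, if_true]
      exact hk
    · obtain ⟨k, hk⟩ := mem_iUnion.1 hy
      refine mem_iUnion.2 ⟨2 * k + 1, ?_⟩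
      have h1 : (2 * k + 1) % 2 = 1 := by omega
      have h2 : (2 * k + 1) / 2 = k := by omega
      simp only [h1, h2, one_ne_zero, if_false]
      exact hk

/-- the inequality, and the good set -/
theorem first_l (crit : CritStmt) (compl : ComplStmt) (fi : H64.TD.FibInStmt)
    (lift : H64.TU.LiftTStmt) (tame : H64.TU.TameOKStmt) (fibL : FibLStmt) (famU : FamUStmt)
    (bound : BoundStmt) {p d r : ℕ} {X Y : Type} [TopologicalSpace X]
    [ChartedSpace (Cm (p + d)) X] [TopologicalSpace Y] [ChartedSpace (Cm p) Y] {f : X → Y}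
    {Δ : Set X → ℝ} {a : Fin (r + 1) → Fin d → Set X → ℤ} (hd : 0 < d)
    (h : H511.Surf.IsFibration (Cm (p + d)) (Cm p) f Δ)
    {w : Chart (p + d) X → Cm (p + d) → Matrix (Fin (p + d)) (Fin (p + d)) ℂ} (hw : IsKahler w)
    {𝒟 : Finset (Set X)} (h𝒟Δ : ∀ D ∈ 𝒟, Δ D = 1) {H₀ : ℕ → Set Y}
    (hH₀ : ∀ k, IsThinSet (Cm p) (H₀ k)) (hgr : ∀ y, (∀ k, y ∉ H₀ k) →
      ∃ (F : Type) (_ : TopologicalSpace F) (_ : ChartedSpace (Cm d) F) (i : F → X),
        H511.Surf.IsFibre (Cm (p + d)) (Cm d) f y i ∧ Function.Injective i ∧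
        LGaussRank (p + d) d i 𝒟 a) :
    ∃ S : Set Y, IsSmallSet (Cm p) S ∧ H64.IsProperFibration (n := p + d) (p := p) f S ∧
      ((r : ℕ∞) : WithBot ℕ∞) + TZ.S.kodF (p + d) p Δ (id : X → X) f ≤
        TZ.S.kodX (Cm (p + d)) Δ := by
  classical
  have : T2Space X := h.hausdorff.1
  have : T2Space Y := h.hausdorff.2
  have : CompactSpace X := h.compact
  have : ConnectedSpace X := h.connected
  have : IsManifold 𝓘(ℂ, Cm (p + d)) ω X := h.manifold.1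
  have : IsManifold 𝓘(ℂ, Cm p) ω Y := h.manifold.2
  have hsurj : Function.Surjective f := fun y => (h.fibres y).nonempty
  have : PreconnectedSpace Y := by
    rw [preconnectedSpace_iff_univ, ← hsurj.range_eq]
    exact isPreconnected_range h.hol.continuous
  have hprime : ∀ D ∈ 𝒟, J.IsPrime (Cm (p + d)) D := fun D hD =>
    h.snc.2.1 D (by rw [h𝒟Δ D hD]; exact one_ne_zero)
  have hΔ0 : ∀ D, 0 ≤ Δ D := fun D => by
    obtain ⟨c, h1, h2, -⟩ := h.snc.2.2.1 D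
    rw [h1]
    exact_mod_cast h2
  obtain ⟨S₁, hS₁, hP⟩ := crit (p + d) p X Y f h.hol h.fibres
  obtain ⟨S₂, h12, hS₂, hne⟩ := fibIn_fin fi hd h.hol hP hS₁ 𝒟 hprime
  have hP₂ := hP S₂ h12 hS₂.1
  have hpre := (compl p Y S₂ hS₂).2
  have hLR : ∀ y ∉ S₂, (∀ k, y ∉ H₀ k) → LRankAt (n := p + d) d f 𝒟 a y := by
    intro y hy hyH
    obtain ⟨F, tF, cF, i, hi, hinj, hg⟩ := hgr y hyH
    exact fibL p d r X Y F f S₂ 𝒟 a i y hd h.hol hS₂.1 hP₂ hprime hne hy hi hinj hg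
  have hfreq : ∀ s b, ∀ y ∉ S₂, ∃ᶠ y' in 𝓝 y, ∃ U, IsUnitAt (Cm (p + d)) f 𝒟 (a s b) y' U := by
    intro s b y hy
    have h1 : H64.Gen.Cov p (⋃ k, H₀ k) := ⟨H₀, hH₀, subset_rfl⟩
    have h2 : ∃ᶠ y' in 𝓝 y, y' ∈ (⋃ k, H₀ k)ᶜ := mem_closure_iff_frequently.1 (h1.dense_compl y)
    refine (h2.and_eventually (hS₂.1.isOpen_compl.mem_nhds hy)).mono ?_
    rintro y' ⟨h3, h4⟩
    obtain ⟨U, hU, -⟩ := hLR y' h4 fun k hk => h3 (mem_iUnion.2 ⟨k, hk⟩)
    exact ⟨U s b, hU s b⟩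
  have hfam := fun s b => famU p d X Y f S₂ w 𝒟 (a s b) hd hw.toIsHermitian h.hol hS₂.1 hP₂
    hprime hne (hfreq s b)
  have hbd := fun s b => bound p d X Y f S₂ w 𝒟 (a s b) hd h.hol hS₂.1 hP₂ hpre hw hprime hne
  have hL : LFam (Cm (p + d)) (Cm p) f S₂ 𝒟 :=
    { hol := fun x => h.hol.contMDiffAt
      closed := hS₂.1
      sub := hP₂.submersive
      conn := fun y hy => (hP₂.connected y hy).isPreconnected
      cpt := fun y hy => hP₂.proper {y} isCompact_singleton (by simpa using hy)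
      prime := hprime
      not_sub := hne }
  let e₀ : Cm (p + d) ≃L[ℂ] (Cm p × Cm d) := ContinuousLinearEquiv.ofFinrankEq (by
    simp)
  set S' : Set Y := {y | y ∈ S₂ ∨ ¬ LRankAt (n := p + d) d f 𝒟 a y} with hS'
  have hsub : S₂ ⊆ S' := fun y hy => Or.inl hy
  have hcl : IsClosed S' := by
    rw [← isOpen_compl_iff, isOpen_iff_mem_nhds]
    intro y hy
    have h1 : y ∉ S₂ := fun h2 => hy (Or.inl h2)
    have h2 : LRankAt (n := p + d) d f 𝒟 a y := by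
      by_contra h3
      exact hy (Or.inr h3)
    filter_upwards [hS₂.1.isOpen_compl.mem_nhds h1, hL.rank_open e₀ hfam h1 h2] with y' h3 h4 h5
    rcases h5 with h5 | h5
    · exact h3 h5
    · exact h5 h4
  have hsmall : IsSmallSet (Cm p) S' := by
    obtain ⟨H₂, hH₂, hsub₂⟩ := hS₂.2
    obtain ⟨H, hH, hHs⟩ := two_seq hH₂ hH₀
    refine ⟨hcl, H, hH, fun y hy => hHs ?_⟩
    rcases hy with hy | hy
    · exact Or.inl (hsub₂ hy)
    · by_cases hyS : y ∈ S₂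
      · exact Or.inl (hsub₂ hyS)
      · right
        by_contra h1
        exact hy (hLR y hyS fun k hk => h1 (mem_iUnion.2 ⟨k, hk⟩))
  have hP' := hP S' (h12.trans hsub) hcl
  refine ⟨S', hsmall, hP', ?_⟩
  refine H303.UF.first_of fun j₂ h₂ => ?_
  exact lift (p + d) p X Y (Cm d) (KTame w) f S' e₀ Δ r j₂
    (tame (p + d) d X w hw.toIsHermitian) h.hol hsmall hP'.submersive h.snc
    (fun y hy => hasForms_mono hsub (hasLStmt p d r X Y (KTame w) f S₂ 𝒟 a e₀ Δ hd h.hol hS₂.1 hP₂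
      hprime hne hΔ0 h𝒟Δ hfam hbd y (fun h3 => hy (Or.inl h3))
      (by
        by_contra h3
        exact hy (Or.inr h3)))) h₂

/-- **T-L** from the blocks -/
theorem tl_of (crit : CritStmt) (compl : ComplStmt) (fi : H64.TD.FibInStmt)
    (lift : H64.TU.LiftTStmt) (tame : H64.TU.TameOKStmt) (fibL : FibLStmt) (famU : FamUStmt)
    (bound : BoundStmt) : TLStmt := by
  intro p d r X Y _ _ _ _ f Δ a hd h hw 𝒟 h𝒟Δ H₀ hH₀ hgr
  obtain ⟨w, hw⟩ := hw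
  have : T2Space X := h.hausdorff.1
  have : T2Space Y := h.hausdorff.2
  have : CompactSpace X := h.compact
  have : ConnectedSpace X := h.connected
  have : IsManifold 𝓘(ℂ, Cm (p + d)) ω X := h.manifold.1
  have : IsManifold 𝓘(ℂ, Cm p) ω Y := h.manifold.2
  obtain ⟨S, hS, hP, h1⟩ := first_l crit compl fi lift tame fibL famU bound hd h hw h𝒟Δ hH₀ hgr
  obtain ⟨H, hH, hsub⟩ := hS.2
  refine ⟨H, hH, fun y hy F _ _ i hi => ⟨h1, fun hk => ?_⟩⟩
  have hyS : y ∉ S := by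
    intro h2
    obtain ⟨k, hk⟩ := mem_iUnion.1 (hsub h2)
    exact hy k hk
  have h2 := H64.TK.finish h.hol h.fibres h.snc hP hyS hi ((add_le_add hk le_rfl).trans h1)
  exact ⟨h2.1.1, h2.2⟩

end Vale.Agent.P281.H969.TL
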