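import Vale.Agent.P281.H969.TL.Unit

/-!
# P281, project T-L (helper969), block B7: the products of logarithmic forms
-/

open scoped Manifold ContDiff Topology
open Set Filter Metric Module

namespace Vale.Agent.P281.H969.TL

open Vale.Agent.P281 Vale.Agent.P281.MF Vale.Agent.P281.ISO Vale.Agent.P281.ELL
open Vale.Agent.P281.H713

set_option linter.unusedSectionVars false

section Form

variable {E E' : Type} [NormedAddCommGroup E] [NormedSpace ℂ E] [FiniteDimensional ℂ E]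
  [NormedAddCommGroup E'] [NormedSpace ℂ E'] [FiniteDimensional ℂ E']
variable {X Y : Type} [TopologicalSpace X] [ChartedSpace E X] [IsManifold 𝓘(ℂ, E) ω X]
  [TopologicalSpace Y] [ChartedSpace E' Y] [IsManifold 𝓘(ℂ, E') ω Y] {d : ℕ}

/-- The factors: `h b`, or one of the local equations. -/
def fac {𝒟 : Finset (Set X)} (e : Set X → X → ℂ) (h : Fin d → X → ℂ)
    (K : Fin d → Option {D // D ∈ 𝒟}) (b : Fin d) : X → ℂ :=
  (K b).elim (h b) fun D => e D.1

/-- The coefficients. -/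
noncomputable def cof {𝒟 : Finset (Set X)} (e : Set X → X → ℂ) (h : Fin d → X → ℂ)
    (a : Fin d → Set X → ℤ) (K : Fin d → Option {D // D ∈ 𝒟}) (z : X) : ℂ :=
  open scoped Classical in
  if ∀ i j, i ≠ j → K i = K j → K i = none then
    (∏ b, (K b).elim (h b z)⁻¹ fun D => (a b D.1 : ℂ)) *
      ∏ D : {D // D ∈ 𝒟}, (if ∃ b, K b = some D then 1 else e D.1 z) else 0

theorem cof_hol {𝒟 : Finset (Set X)} {e : Set X → X → ℂ} {h : Fin d → X → ℂ}
    (a : Fin d → Set X → ℤ) (K : Fin d → Option {D // D ∈ 𝒟}) {x : X}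
    (he : ∀ D ∈ 𝒟, HolV E (e D) x) (hh : ∀ b, HolV E (h b) x ∧ h b x ≠ 0) :
    HolV E (cof e h a K) x := by
  classical
  unfold cof
  split_ifs with hK
  · refine HolV.mul (HolV.prod fun b _ => ?_) (HolV.prod fun D _ => ?_)
    · rcases K b with _ | D
      · have h1 := (HolV.const (1 : ℂ) x).div (hh b).1 (hh b).2
        refine h1.congr (Eventually.of_forall fun z => ?_)
        show (h b z)⁻¹ = 1 / h b z
        rw [one_div]
      · exact HolV.const _ x
    · split_ifs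
      · exact HolV.const _ x
      · exact he D.1 D.2
  · exact HolV.const _ x

/-- The expansion at a point. -/
theorem JP_log (e₀ : E ≃L[ℂ] (E' × (Fin d → ℂ))) (A : E →L[ℂ] E') {𝒟 : Finset (Set X)}
    {e : Set X → X → ℂ} {h : Fin d → X → ℂ} (a : Fin d → Set X → ℤ) {z : X}
    (he : ∀ D ∈ 𝒟, HolV E (e D) z ∧ e D z ≠ 0) (hh : ∀ b, HolV E (h b) z ∧ h b z ≠ 0) :
    JP e₀ A (ContinuousLinearMap.pi fun b => dl E (fun z => h b z * ∏ D ∈ 𝒟, e D z ^ a b D) z) *
        ∏ D ∈ 𝒟, e D z =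
      ∑ K : Fin d → Option {D // D ∈ 𝒟}, cof e h a K z *
        JP e₀ A (ContinuousLinearMap.pi fun b => dV E (fac e h K b) z) := by
  classical
  let c : Fin d → Option {D // D ∈ 𝒟} → ℂ := fun b k =>
    k.elim (h b z)⁻¹ fun D => (a b D.1 : ℂ) * (e D.1 z)⁻¹
  let g : Fin d → Option {D // D ∈ 𝒟} → (E →L[ℂ] ℂ) := fun b k =>
    k.elim (dV E (h b) z) fun D => dV E (e D.1) z
  have h1 : ∀ b, dl E (fun z => h b z * ∏ D ∈ 𝒟, e D z ^ a b D) z = ∑ k, c b k • g b k := by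
    intro b
    have h2 : HolV E (fun z => ∏ D ∈ 𝒟, e D z ^ a b D) z :=
      HolV.prod fun D hD => holV_zpow (he D hD).1 (he D hD).2 _
    have h3 : ∏ D ∈ 𝒟, e D z ^ a b D ≠ 0 :=
      Finset.prod_ne_zero_iff.2 fun D hD => zpow_ne_zero _ (he D hD).2
    rw [dl_mul (hh b).1 h2 (hh b).2 h3,
      dl_fprod 𝒟 (fun D hD => holV_zpow (he D hD).1 (he D hD).2 _)
        fun D hD => zpow_ne_zero _ (he D hD).2, Fintype.sum_option]
    have h4 : ∑ D ∈ 𝒟, dl E (fun z => e D z ^ a b D) z =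
        ∑ D : {D // D ∈ 𝒟}, dl E (fun z => e D.1 z ^ a b D.1) z :=
      (Finset.sum_coe_sort 𝒟 fun D => dl E (fun z => e D z ^ a b D) z).symm
    rw [h4]
    congr 1
    refine Finset.sum_congr rfl fun D _ => ?_
    rw [dl_zpow (he D.1 D.2).1 (he D.1 D.2).2]
    show (a b D.1 : ℂ) • (e D.1 z)⁻¹ • dV E (e D.1) z =
      ((a b D.1 : ℂ) * (e D.1 z)⁻¹) • dV E (e D.1) z
    rw [smul_smul]
  have h2 : (fun b => dl E (fun z => h b z * ∏ D ∈ 𝒟, e D z ^ a b D) z) =
      fun b => ∑ k, c b k • g b k := funext h1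
  rw [h2, JP_expand, Finset.sum_mul]
  refine Finset.sum_congr rfl fun K _ => ?_
  have h3 : (fun b => g b (K b)) = fun b => dV E (fac e h K b) z := by
    funext b
    unfold fac
    rcases K b with _ | D
    · rfl
    · rfl
  rw [h3]
  unfold cof
  split_ifs with hK
  · have h4 : ∏ b, c b (K b) = (∏ b, (K b).elim (h b z)⁻¹ fun D => (a b D.1 : ℂ)) *
        ∏ b, (K b).elim 1 fun D => (e D.1 z)⁻¹ := by
      rw [← Finset.prod_mul_distrib]
      refine Finset.prod_congr rfl fun b _ => ?_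
      show (K b).elim (h b z)⁻¹ (fun D => (a b D.1 : ℂ) * (e D.1 z)⁻¹) = _
      rcases K b with _ | D
      · exact (mul_one _).symm
      · rfl
    have h5 := prod_opt (𝒟 := {D // D ∈ 𝒟}) (K := K) hK (e := fun D => e D.1 z)
      fun D => (he D.1 D.2).2
    have h6 : ∏ D ∈ 𝒟, e D z = ∏ D : {D // D ∈ 𝒟}, e D.1 z :=
      (Finset.prod_coe_sort 𝒟 fun D => e D z).symm
    rw [h4, h6, ← h5]
    ring
  · push Not at hK
    obtain ⟨i, j, hij, h4, h5⟩ := hK
    obtain ⟨D, hD⟩ := Option.ne_none_iff_exists'.1 h5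
    have h6 : dV E (fac e h K i) z = dV E (fac e h K j) z := by
      have h7 : fac e h K i = fac e h K j := by
        unfold fac
        rw [← h4, hD]
        rfl
      rw [h7]
    have h7 : JP e₀ A (ContinuousLinearMap.pi fun b => dV E (fac e h K b) z) = 0 :=
      JP_eq_zero e₀ A hij h6
    rw [h7]
    ring

/-- Holomorphy of the products of logarithmic forms. -/
theorem hol_log {f : X → Y} (hf : ∀ x, HolM E E' f x) (e₀ : E ≃L[ℂ] (E' × (Fin d → ℂ)))
    {x₀ x : X} {y₀ : Y} (hx₀ : x ∈ (chartAt E x₀).source) (hy₀ : f x ∈ (chartAt E' y₀).source)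
    {𝒟 : Finset (Set X)} {e : Set X → X → ℂ} (he : ∀ D ∈ 𝒟, J.IsLocalEq E D (e D) x)
    {h : Fin d → X → ℂ} (hh : ∀ b, HolV E (h b) x ∧ h b x ≠ 0) (a : Fin d → Set X → ℤ) :
    ∃ H : X → ℂ, HolV E H x ∧ ∀ᶠ z in 𝓝 x, (∀ D ∈ 𝒟, z ∉ D) →
      jac E' (chartAt E' y₀) (f z) * JP e₀ (dM E E' f z) (ContinuousLinearMap.pi fun b =>
        dl E (fun z => h b z * ∏ D ∈ 𝒟, e D z ^ a b D) z) * ∏ D ∈ 𝒟, e D z =
        H z * jac E (chartAt E x₀) z := by
  classical
  have heH : ∀ D ∈ 𝒟, HolV E (e D) x := by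
    intro D hD
    obtain ⟨V, -, hxV, h1, -⟩ := he D hD
    exact h1 x hxV
  have hfac : ∀ (K : Fin d → Option {D // D ∈ 𝒟}) b, HolV E (fac e h K b) x := by
    intro K b
    unfold fac
    rcases K b with _ | D
    · exact (hh b).1
    · exact heH D.1 D.2
  have h1 : ∀ K : Fin d → Option {D // D ∈ 𝒟}, ∃ J : X → ℂ, HolV E J x ∧ ∀ᶠ z in 𝓝 x,
      J z * jac E (chartAt E x₀) z = jac E' (chartAt E' y₀) (f z) *
        JP e₀ (dM E E' f z) (ContinuousLinearMap.pi fun b => dV E (fac e h K b) z) := by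
    intro K
    obtain ⟨J, hJ, hJe⟩ := JP_local hf e₀ hx₀ hy₀ (holV_vec (hfac K))
    refine ⟨J, hJ, ?_⟩
    have h2 : ∀ᶠ z in 𝓝 x, ∀ b, HolV E (fac e h K b) z :=
      eventually_all.2 fun b => (hfac K b).eventually
    filter_upwards [hJe, h2] with z h3 h4
    rw [h3]
    congr 2
    ext ξ b
    exact dV_vec h4 ξ b
  choose J hJ hJe using h1
  refine ⟨fun z => ∑ K, cof e h a K z * J K z,
    HolV.sum fun K _ => (cof_hol a K heH hh).mul (hJ K), ?_⟩
  have h2 : ∀ᶠ z in 𝓝 x, ∀ D ∈ 𝒟, HolV E (e D) z ∧ (z ∉ D → e D z ≠ 0) :=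
    (Finset.eventually_all 𝒟).2 fun D hD => (heH D hD).eventually.and (localEq_ne (he D hD))
  have h3 : ∀ᶠ z in 𝓝 x, ∀ b, HolV E (h b) z ∧ h b z ≠ 0 :=
    eventually_all.2 fun b => (hh b).1.eventually.and
      ((hh b).1.continuousAt.eventually_ne (hh b).2)
  filter_upwards [h2, h3, eventually_all.2 hJe] with z h4 h5 h6 h7
  have h8 := JP_log e₀ (dM E E' f z) a (fun D hD => ⟨(h4 D hD).1, (h4 D hD).2 (h7 D hD)⟩) h5
  rw [mul_assoc, h8, Finset.mul_sum, Finset.sum_mul]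
  refine Finset.sum_congr rfl fun K _ => ?_
  calc jac E' (chartAt E' y₀) (f z) * (cof e h a K z *
        JP e₀ (dM E E' f z) (ContinuousLinearMap.pi fun b => dV E (fac e h K b) z))
      = cof e h a K z * (jac E' (chartAt E' y₀) (f z) *
        JP e₀ (dM E E' f z) (ContinuousLinearMap.pi fun b => dV E (fac e h K b) z)) := by ring
    _ = cof e h a K z * J K z * jac E (chartAt E x₀) z := by rw [← h6 K]; ring

end Form

end Vale.Agent.P281.H969.TL
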