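import Vale.Agent.P281.H969.TL.Form

/-!
# P281, project T-L (helper969), block B7: the forms
-/

open scoped Manifold ContDiff Topology
open Set Filter Metric Module

namespace Vale.Agent.P281.H969.TL

open Vale.Agent.P281 Vale.Agent.P281.MF Vale.Agent.P281.ISO Vale.Agent.P281.ELL
open Vale.Agent.P281.H713 Vale.Agent.P281.H64.TU

set_option linter.unusedSectionVars false

/-- bounded determinants -/
theorem det_bdd {d : ℕ} (B : ℝ) : ∃ B₁ : ℝ, 0 ≤ B₁ ∧ ∀ A : (Fin d → ℂ) →L[ℂ] (Fin d → ℂ),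
    ‖A‖ ≤ B → ‖A.det‖ ≤ B₁ := by
  have hc : Continuous fun A : (Fin d → ℂ) →L[ℂ] (Fin d → ℂ) => A.det := contDiff_det.continuous
  obtain ⟨C, hC⟩ := (isCompact_closedBall (0 : (Fin d → ℂ) →L[ℂ] (Fin d → ℂ)) B
    ).exists_bound_of_continuousOn hc.continuousOn
  refine ⟨max C 0, le_max_right _ _, fun A hA => (hC A ?_).trans (le_max_left _ _)⟩
  rw [mem_closedBall_zero_iff]
  exact hA

section Has

variable {E E' : Type} [NormedAddCommGroup E] [NormedSpace ℂ E] [FiniteDimensional ℂ E]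
  [NormedAddCommGroup E'] [NormedSpace ℂ E'] [FiniteDimensional ℂ E']
variable {X Y : Type} [TopologicalSpace X] [ChartedSpace E X] [IsManifold 𝓘(ℂ, E) ω X]
  [TopologicalSpace Y] [ChartedSpace E' Y] [IsManifold 𝓘(ℂ, E') ω Y] {d : ℕ}

/-- The map `f` and the divisors. -/
structure LFam (E E' : Type) [NormedAddCommGroup E] [NormedSpace ℂ E]
    [NormedAddCommGroup E'] [NormedSpace ℂ E']
    {X Y : Type} [TopologicalSpace X] [ChartedSpace E X] [TopologicalSpace Y] [ChartedSpace E' Y]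
    (f : X → Y) (S : Set Y) (𝒟 : Finset (Set X)) : Prop where
  hol : ∀ x, HolM E E' f x
  closed : IsClosed S
  sub : ∀ x, f x ∉ S → Function.Surjective (dM E E' f x)
  conn : ∀ y ∉ S, IsPreconnected (f ⁻¹' {y})
  cpt : ∀ y ∉ S, IsCompact (f ⁻¹' {y})
  prime : ∀ D ∈ 𝒟, J.IsPrime E D
  not_sub : ∀ D ∈ 𝒟, ∀ y ∉ S, ¬ f ⁻¹' {y} ⊆ D

variable {f : X → Y} {S : Set Y} {𝒟 : Finset (Set X)}

theorem LFam.off (hL : LFam E E' f S 𝒟) {x : X} (hx : ∀ D ∈ 𝒟, x ∉ D) :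
    ∀ᶠ z in 𝓝 x, ∀ D ∈ 𝒟, z ∉ D :=
  (Finset.eventually_all 𝒟).2 fun D hD => (hL.prime D hD).1.isOpen_compl.mem_nhds (hx D hD)

theorem LFam.unique (hL : LFam E E' f S 𝒟) (e₀ : E ≃L[ℂ] (E' × (Fin d → ℂ))) {a : Set X → ℤ}
    {y : Y} (hy : y ∉ S) {U U' : X → ℂ} (hU : IsUnitAt E f 𝒟 a y U)
    (hU' : IsUnitAt E f 𝒟 a y U') :
    ∃ c : ℂ, c ≠ 0 ∧ ∀ z, f z = y → (∀ D ∈ 𝒟, z ∉ D) → U z = c * U' z :=
  unit_unique hL.hol e₀ (fun x hx => hL.sub x (by rw [hx]; exact hy)) (hL.conn y hy)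
    (hL.cpt y hy) hL.prime (fun D hD => hL.not_sub D hD y hy) hU hU'

/-- The logarithmic differentials on the fibres are unique. -/
theorem LFam.dl_ker (hL : LFam E E' f S 𝒟) (e₀ : E ≃L[ℂ] (E' × (Fin d → ℂ))) {a : Set X → ℤ}
    {x : X} (hx : f x ∉ S) (hx𝒟 : ∀ D ∈ 𝒟, x ∉ D) {W W' : Set Y} (hW : f x ∈ W)
    (hW' : f x ∈ W') {U U' : X → ℂ} (hU : IsUnitOn E f 𝒟 a W U)
    (hU' : IsUnitOn E f 𝒟 a W' U') {ξ : E} (hξ : dM E E' f x ξ = 0) :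
    dl E U x ξ = dl E U' x ξ := by
  obtain ⟨c, hc, h1⟩ := hL.unique e₀ hx (hU.at hW) (hU'.at hW')
  have h𝒟 : ∀ D ∈ 𝒟, IsClosed D := fun D hD => (hL.prime D hD).1
  obtain ⟨h2, h3⟩ := hU.hol h𝒟 hW hx𝒟
  obtain ⟨h2', h3'⟩ := hU'.hol h𝒟 hW' hx𝒟
  have h4 : dV E U x ξ = c * dV E U' x ξ := by
    refine dV_ker_congr hL.hol e₀ (hL.sub x hx) h2 h2' ?_ hξ
    filter_upwards [hL.off hx𝒟] with z h5 h6
    exact h1 z h6 h5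
  show (U x)⁻¹ * dV E U x ξ = (U' x)⁻¹ * dV E U' x ξ
  rw [h4, h1 x rfl hx𝒟]
  field_simp

/-- The form `dlog U_1 ∧ ⋯ ∧ dlog U_d`. -/
noncomputable def theta (E E' : Type) [NormedAddCommGroup E] [NormedSpace ℂ E]
    [NormedAddCommGroup E'] [NormedSpace ℂ E']
    {X Y : Type} [TopologicalSpace X] [ChartedSpace E X] [TopologicalSpace Y] [ChartedSpace E' Y]
    (f : X → Y) (e₀ : E ≃L[ℂ] (E' × (Fin d → ℂ))) (U : Fin d → Y → X → ℂ) (x : X) : ℂ :=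
  JP e₀ (dM E E' f x) (ContinuousLinearMap.pi fun b => dl E (U b (f x)) x)

theorem LFam.theta_eq (hL : LFam E E' f S 𝒟) (e₀ : E ≃L[ℂ] (E' × (Fin d → ℂ)))
    {a : Fin d → Set X → ℤ} {W : Fin d → Y → Set Y} {U : Fin d → Y → X → ℂ}
    (hU : ∀ b, ∀ y ∉ S, IsOpen (W b y) ∧ y ∈ W b y ∧ IsUnitOn E f 𝒟 (a b) (W b y) (U b y))
    {x : X} (hx : f x ∉ S) (hx𝒟 : ∀ D ∈ 𝒟, x ∉ D) {W' : Fin d → Set Y} {U' : Fin d → X → ℂ}
    (hU' : ∀ b, f x ∈ W' b ∧ IsUnitOn E f 𝒟 (a b) (W' b) (U' b)) :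
    theta E E' f e₀ U x =
      JP e₀ (dM E E' f x) (ContinuousLinearMap.pi fun b => dl E (U' b) x) := by
  refine JP_ker e₀ (hL.sub x hx) fun ξ hξ => ?_
  funext b
  exact hL.dl_ker e₀ hx hx𝒟 (hU b _ hx).2.1 (hU' b).1 (hU b _ hx).2.2 (hU' b).2 hξ

/-- The pole orders. -/
noncomputable def kapL (𝒟 : Finset (Set X)) (D : Set X) : ℕ :=
  open scoped Classical in if D ∈ 𝒟 then 1 else 0

theorem prod_kapL {T : Finset (Set X)} (hT : ∀ D, kapL 𝒟 D ≠ 0 → D ∈ T) (g : Set X → ℂ) :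
    ∏ D ∈ T, g D ^ kapL 𝒟 D = ∏ D ∈ 𝒟, g D := by
  classical
  have h1 : 𝒟 ⊆ T := by
    intro D hD
    refine hT D ?_
    unfold kapL
    rw [if_pos hD]
    exact one_ne_zero
  rw [← Finset.prod_subset h1 (f := fun D => g D ^ kapL 𝒟 D)]
  · refine Finset.prod_congr rfl fun D hD => ?_
    unfold kapL
    rw [if_pos hD, pow_one]
  · intro D _ hD
    unfold kapL
    rw [if_neg hD, pow_zero]

theorem LFam.theta_hol (hL : LFam E E' f S 𝒟) (e₀ : E ≃L[ℂ] (E' × (Fin d → ℂ)))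
    {a : Fin d → Set X → ℤ} {W : Fin d → Y → Set Y} {U : Fin d → Y → X → ℂ}
    (hU : ∀ b, ∀ y ∉ S, IsOpen (W b y) ∧ y ∈ W b y ∧ IsUnitOn E f 𝒟 (a b) (W b y) (U b y))
    {x₀ x : X} {y₀ : Y} (hx : f x ∉ S) (hx₀ : x ∈ (chartAt E x₀).source)
    (hy₀ : f x ∈ (chartAt E' y₀).source) {e : Set X → X → ℂ}
    (he : ∀ D ∈ 𝒟, J.IsLocalEq E D (e D) x) :
    ∃ H : X → ℂ, HolV E H x ∧ ∀ᶠ z in 𝓝 x, (∀ D ∈ 𝒟, z ∉ D) →
      jac E' (chartAt E' y₀) (f z) * theta E E' f e₀ U z * ∏ D ∈ 𝒟, e D z =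
        H z * jac E (chartAt E x₀) z := by
  have h1 : ∀ b, ∃ h : X → ℂ, HolV E h x ∧ h x ≠ 0 ∧ ∀ᶠ z in 𝓝 x, (∀ D ∈ 𝒟, z ∉ D) →
      U b (f x) z = h z * ∏ D ∈ 𝒟, e D z ^ a b D := fun b =>
    (hU b _ hx).2.2 x (hU b _ hx).2.1 e he
  choose h hh1 hh2 hh3 using h1
  obtain ⟨H, hH, hHe⟩ := hol_log hL.hol e₀ hx₀ hy₀ he (fun b => ⟨hh1 b, hh2 b⟩) a
  refine ⟨H, hH, ?_⟩
  have h2 : ∀ᶠ z in 𝓝 x, ∀ b, f z ∈ W b (f x) :=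
    eventually_all.2 fun b => (hL.hol x).continuousAt.eventually
      ((hU b _ hx).1.mem_nhds (hU b _ hx).2.1)
  have h3 : ∀ᶠ z in 𝓝 x, f z ∉ S :=
    (hL.hol x).continuousAt.eventually (hL.closed.isOpen_compl.mem_nhds hx)
  filter_upwards [hHe, h2, h3, eventually_eventually_nhds.2 (eventually_all.2 hh3)]
    with z h4 h5 h6 h7 h8
  rw [← h4 h8]
  have h9 := hL.theta_eq e₀ hU h6 h8 (W' := fun b => W b (f x)) (U' := fun b => U b (f x))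
    fun b => ⟨h5 b, (hU b _ hx).2.2⟩
  have h10 : ∀ b, dl E (U b (f x)) z = dl E (fun z => h b z * ∏ D ∈ 𝒟, e D z ^ a b D) z := by
    intro b
    refine dl_congr ?_
    filter_upwards [h7, hL.off h8] with w h11 h12
    exact h11 b h12
  rw [h9]
  have h11 : (fun b => dl E (U b (f x)) z) =
      fun b => dl E (fun z => h b z * ∏ D ∈ 𝒟, e D z ^ a b D) z := funext h10
  rw [h11]

/-- The logarithmic differentials on a slice. -/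
noncomputable def lrow (u : Fin d → (Fin d → ℂ) → ℂ) (v : Fin d → ℂ) :
    (Fin d → ℂ) →L[ℂ] (Fin d → ℂ) :=
  ContinuousLinearMap.pi fun b => (u b v)⁻¹ • fderiv ℂ (u b) v

theorem lrow_det (u : Fin d → (Fin d → ℂ) → ℂ) (v : Fin d → ℂ) :
    (lrow u v).det = lcoef u v := by
  rw [det_clm_eq]
  unfold lcoef
  congr 1
  ext b c
  show (u b v)⁻¹ * fderiv ℂ (u b) v (Pi.single c 1) = fderiv ℂ (u b) v (Pi.single c 1) / u b v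
  rw [div_eq_mul_inv, mul_comm]

/-- The values of the form on a slice. -/
theorem LFam.theta_slice (hL : LFam E E' f S 𝒟) (e₀ : E ≃L[ℂ] (E' × (Fin d → ℂ)))
    {a : Fin d → Set X → ℤ} {W : Fin d → Y → Set Y} {U : Fin d → Y → X → ℂ}
    (hU : ∀ b, ∀ y ∉ S, IsOpen (W b y) ∧ y ∈ W b y ∧ IsUnitOn E f 𝒟 (a b) (W b y) (U b y))
    {q : (Fin d → ℂ) → X} {v : Fin d → ℂ} (hq : ContMDiffAt 𝓘(ℂ, Fin d → ℂ) 𝓘(ℂ, E) ω q v)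
    (hfq : ∀ᶠ z in 𝓝 v, f (q z) = f (q v)) {y : Y} (hqy : f (q v) = y) (hy : y ∉ S)
    (hq𝒟 : ∀ D ∈ 𝒟, q v ∉ D) {P : E →L[ℂ] (Fin d → ℂ)}
    (hP : P.comp (mfderiv 𝓘(ℂ, Fin d → ℂ) 𝓘(ℂ, E) q v : (Fin d → ℂ) →L[ℂ] E) =
      ContinuousLinearMap.id ℂ (Fin d → ℂ)) :
    theta E E' f e₀ U (q v) =
      (lrow (fun b v' => U b y (q v')) v).det * JP e₀ (dM E E' f (q v)) P := by
  subst hqy
  set t : (Fin d → ℂ) →L[ℂ] E := mfderiv 𝓘(ℂ, Fin d → ℂ) 𝓘(ℂ, E) q v with ht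
  have hAt : ∀ w, dM E E' f (q v) (t w) = 0 := slice_ker hL.hol hq hfq
  have hPt : ∀ w, P (t w) = w := fun w =>
    congrArg (fun L : (Fin d → ℂ) →L[ℂ] (Fin d → ℂ) => L w) hP
  unfold theta
  rw [JP_det e₀ (hL.sub _ hy) hAt hPt]
  congr 2
  ext w b
  have h1 := ((hU b _ hy).2.2.hol (fun D hD => (hL.prime D hD).1) (hU b _ hy).2.1 hq𝒟).1
  have h2 := (slice_fderiv hq h1).2
  have h3 : fderiv ℂ (fun z => U b (f (q v)) (q z)) v w = dV E (U b (f (q v))) (q v) (t w) :=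
    congrArg (fun L : (Fin d → ℂ) →L[ℂ] ℂ => L w) h2
  show (U b (f (q v)) (q v))⁻¹ * dV E (U b (f (q v))) (q v) (t w) =
    (U b (f (q v)) (q v))⁻¹ * fderiv ℂ (fun z => U b (f (q v)) (q z)) v w
  rw [h3]

/-- The bounds. -/
theorem LFam.theta_bound (hL : LFam E E' f S 𝒟) (e₀ : E ≃L[ℂ] (E' × (Fin d → ℂ)))
    {a : Fin d → Set X → ℤ} {W : Fin d → Y → Set Y} {U : Fin d → Y → X → ℂ}
    (hU : ∀ b, ∀ y ∉ S, IsOpen (W b y) ∧ y ∈ W b y ∧ IsUnitOn E f 𝒟 (a b) (W b y) (U b y))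
    {𝒯 : Tame (Fin d → ℂ) X} {r K : ℝ}
    (hB : ∀ b, ∃ B : ℝ, ∀ (y : Y) (U : X → ℂ), y ∉ S →
      IsUnitAt E f 𝒟 (a b) y U → ∀ (q : (Fin d → ℂ) → X) (v₀ : Fin d → ℂ),
      IsPolydisc E f q v₀ r → 𝒯 K q v₀ r → f (q v₀) = y →
      (∀ v ∈ ball v₀ r, ∀ D ∈ 𝒟, q v ∉ D) →
      ‖fderiv ℂ (fun v => U (q v)) v₀‖ ≤ B * ‖U (q v₀)‖) (hr : 0 < r) :
    ∃ C : ℝ, ∀ (v₀ : Fin d → ℂ) (Q : (Fin d → ℂ) → X),
      (∀ v ∈ ball v₀ r, ContMDiffAt 𝓘(ℂ, Fin d → ℂ) 𝓘(ℂ, E) ω Q v) → InjOn Q (ball v₀ r) →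
      (∀ v ∈ ball v₀ r, f (Q v) = f (Q v₀)) → f (Q v₀) ∉ S →
      (∀ v ∈ ball v₀ r, ∀ D ∈ (𝒟 : Set (Set X)), Q v ∉ D) → 𝒯 K Q v₀ r →
      ∀ P : E →L[ℂ] (Fin d → ℂ),
      P.comp (mfderiv 𝓘(ℂ, Fin d → ℂ) 𝓘(ℂ, E) Q v₀ : (Fin d → ℂ) →L[ℂ] E) =
        ContinuousLinearMap.id ℂ (Fin d → ℂ) →
      ‖theta E E' f e₀ U (Q v₀)‖ ≤ C * ‖JP e₀ (dM E E' f (Q v₀)) P ^ 1‖ := by
  choose B hB using hB
  obtain ⟨B₁, hB₁, hdet⟩ := det_bdd (d := d) (∑ b, |B b|)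
  refine ⟨B₁, fun v₀ Q h1 h2 h3 h4 h5 h6 P hP => ?_⟩
  have hv₀ : v₀ ∈ ball v₀ r := mem_ball_self hr
  have hQ𝒟 : ∀ D ∈ 𝒟, Q v₀ ∉ D := fun D hD => h5 v₀ hv₀ D (Finset.mem_coe.2 hD)
  rw [hL.theta_slice e₀ hU (h1 v₀ hv₀)
    (by filter_upwards [isOpen_ball.mem_nhds hv₀] with v hv using h3 v hv) rfl h4 hQ𝒟 hP,
    norm_mul, pow_one]
  refine mul_le_mul_of_nonneg_right (hdet _ ?_) (norm_nonneg _)
  refine ContinuousLinearMap.opNorm_le_bound _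
    (Finset.sum_nonneg fun b _ => abs_nonneg _) fun w => ?_
  refine (pi_norm_le_iff_of_nonneg (mul_nonneg (Finset.sum_nonneg fun b _ => abs_nonneg _)
    (norm_nonneg _))).2 fun b => ?_
  have h7 := (hU b _ h4).2.2
  have h8 := hB b (f (Q v₀)) (U b (f (Q v₀))) h4 (h7.at (hU b _ h4).2.1) Q v₀ ⟨h1, h2, h3⟩ h6 rfl
    fun v hv D hD => h5 v hv D (Finset.mem_coe.2 hD)
  have h9 := (h7.hol (fun D hD => (hL.prime D hD).1) (hU b _ h4).2.1 hQ𝒟).2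
  show ‖(U b (f (Q v₀)) (Q v₀))⁻¹ * fderiv ℂ (fun z => U b (f (Q v₀)) (Q z)) v₀ w‖ ≤ _
  rw [norm_mul, norm_inv]
  have h10 : 0 < ‖U b (f (Q v₀)) (Q v₀)‖ := norm_pos_iff.2 h9
  have h11 : |B b| ≤ ∑ b, |B b| :=
    Finset.single_le_sum (f := fun b => |B b|) (fun b _ => abs_nonneg _) (Finset.mem_univ b)
  calc ‖U b (f (Q v₀)) (Q v₀)‖⁻¹ * ‖fderiv ℂ (fun z => U b (f (Q v₀)) (Q z)) v₀ w‖
      ≤ ‖U b (f (Q v₀)) (Q v₀)‖⁻¹ * ((B b * ‖U b (f (Q v₀)) (Q v₀)‖) * ‖w‖) := by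
        refine mul_le_mul_of_nonneg_left ?_ (inv_nonneg.2 (norm_nonneg _))
        exact (ContinuousLinearMap.le_opNorm _ _).trans
          (mul_le_mul_of_nonneg_right h8 (norm_nonneg _))
    _ = B b * ‖w‖ := by field_simp
    _ ≤ (∑ b, |B b|) * ‖w‖ :=
        mul_le_mul_of_nonneg_right ((le_abs_self _).trans h11) (norm_nonneg _)

theorem LFam.relForm (hL : LFam E E' f S 𝒟) (e₀ : E ≃L[ℂ] (E' × (Fin d → ℂ)))
    {a : Fin d → Set X → ℤ} {W : Fin d → Y → Set Y} {U : Fin d → Y → X → ℂ}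
    (hU : ∀ b, ∀ y ∉ S, IsOpen (W b y) ∧ y ∈ W b y ∧ IsUnitOn E f 𝒟 (a b) (W b y) (U b y))
    {𝒯 : Tame (Fin d → ℂ) X}
    (hB : ∀ b, ∀ r K : ℝ, 0 < r → 0 < K → ∃ B : ℝ, ∀ (y : Y) (U : X → ℂ), y ∉ S →
      IsUnitAt E f 𝒟 (a b) y U → ∀ (q : (Fin d → ℂ) → X) (v₀ : Fin d → ℂ),
      IsPolydisc E f q v₀ r → 𝒯 K q v₀ r → f (q v₀) = y →
      (∀ v ∈ ball v₀ r, ∀ D ∈ 𝒟, q v ∉ D) →
      ‖fderiv ℂ (fun v => U (q v)) v₀‖ ≤ B * ‖U (q v₀)‖) :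
    RelFormT 𝒯 f S e₀ 1 (𝒟 : Set (Set X)) (kapL 𝒟) (theta E E' f e₀ U) where
  hol := by
    intro x₀ x y₀ hx hx₀ hy₀ T e hT he
    have h1 : ∀ D ∈ 𝒟, J.IsLocalEq E D (e D) x := fun D hD => he D (hT D (by
      classical
      unfold kapL
      rw [if_pos hD]
      exact one_ne_zero))
    obtain ⟨H, hH, hHe⟩ := hL.theta_hol e₀ hU hx hx₀ hy₀ h1
    refine ⟨H, hH, ?_⟩
    filter_upwards [hHe] with z h2 h3 _
    rw [prod_kapL hT, pow_one, pow_one]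
    exact h2 fun D hD => h3 D (Finset.mem_coe.2 hD)
  bound := fun r K hr hK => hL.theta_bound e₀ hU (fun b => hB b r K hr hK) hr

end Has

end Vale.Agent.P281.H969.TL
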