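import Vale.Agent.P281.H969.TL.Has

/-!
# P281, project T-L (helper969), block B7: `HasLStmt`
-/

open scoped Manifold ContDiff Topology
open Set Filter Metric Module

namespace Vale.Agent.P281.H969.TL

open Vale.Agent.P281 Vale.Agent.P281.MF Vale.Agent.P281.ISO Vale.Agent.P281.ELL
open Vale.Agent.P281.H713 Vale.Agent.P281.H64.TU Vale.Agent.P272.K

set_option linter.unusedSectionVars false

section HasL

variable {E E' : Type} [NormedAddCommGroup E] [NormedSpace ℂ E] [FiniteDimensional ℂ E]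
  [NormedAddCommGroup E'] [NormedSpace ℂ E'] [FiniteDimensional ℂ E']
variable {X Y : Type} [TopologicalSpace X] [ChartedSpace E X] [IsManifold 𝓘(ℂ, E) ω X]
  [TopologicalSpace Y] [ChartedSpace E' Y] [IsManifold 𝓘(ℂ, E') ω Y] {d : ℕ}
variable {f : X → Y} {S : Set Y} {𝒟 : Finset (Set X)}

theorem LFam.exists_frame (hL : LFam E E' f S 𝒟) (e₀ : E ≃L[ℂ] (E' × (Fin d → ℂ)))
    {a : Fin d → Set X → ℤ} {W : Fin d → Y → Set Y} {U : Fin d → Y → X → ℂ}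
    (hU : ∀ b, ∀ y ∉ S, IsOpen (W b y) ∧ y ∈ W b y ∧ IsUnitOn E f 𝒟 (a b) (W b y) (U b y))
    {q : (Fin d → ℂ) → X} {v : Fin d → ℂ} (hq : ContMDiffAt 𝓘(ℂ, Fin d → ℂ) 𝓘(ℂ, E) ω q v)
    (hfq : ∀ᶠ z in 𝓝 v, f (q z) = f (q v)) {y : Y} (hqy : f (q v) = y) (hy : y ∉ S)
    (hq𝒟 : ∀ D ∈ 𝒟, q v ∉ D) (hdet : lcoef (fun b v' => U b y (q v')) v ≠ 0) :
    ∃ P : E →L[ℂ] (Fin d → ℂ),
      P.comp (mfderiv 𝓘(ℂ, Fin d → ℂ) 𝓘(ℂ, E) q v : (Fin d → ℂ) →L[ℂ] E) =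
        ContinuousLinearMap.id ℂ (Fin d → ℂ) ∧ JP e₀ (dM E E' f (q v)) P ≠ 0 := by
  subst hqy
  rw [← lrow_det] at hdet
  set t : (Fin d → ℂ) →L[ℂ] E := mfderiv 𝓘(ℂ, Fin d → ℂ) 𝓘(ℂ, E) q v with ht
  have hAt : ∀ w, dM E E' f (q v) (t w) = 0 := slice_ker hL.hol hq hfq
  set B := lrow (fun b v' => U b (f (q v)) (q v')) v with hB
  set e := B.toContinuousLinearEquivOfDetNeZero hdet with he
  have he' : (e : (Fin d → ℂ) →L[ℂ] (Fin d → ℂ)) = B := by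
    rw [he, ContinuousLinearMap.coe_toContinuousLinearEquivOfDetNeZero]
  set P₀ : E →L[ℂ] (Fin d → ℂ) :=
    ContinuousLinearMap.pi fun b => dl E (U b (f (q v))) (q v) with hP₀
  have hP₀t : ∀ w, P₀ (t w) = B w := by
    intro w
    funext b
    have h1 := ((hU b _ hy).2.2.hol (fun D hD => (hL.prime D hD).1) (hU b _ hy).2.1 hq𝒟).1
    have h2 := (slice_fderiv hq h1).2
    have h3 : fderiv ℂ (fun z => U b (f (q v)) (q z)) v w = dV E (U b (f (q v))) (q v) (t w) :=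
      congrArg (fun L : (Fin d → ℂ) →L[ℂ] ℂ => L w) h2
    show (U b (f (q v)) (q v))⁻¹ * dV E (U b (f (q v))) (q v) (t w) =
      (U b (f (q v)) (q v))⁻¹ * fderiv ℂ (fun z => U b (f (q v)) (q z)) v w
    rw [h3]
  have hPt : ∀ w, e.symm (P₀ (t w)) = w := by
    intro w
    rw [hP₀t, e.symm_apply_eq, ← he']
    rfl
  refine ⟨(e.symm : (Fin d → ℂ) →L[ℂ] (Fin d → ℂ)).comp P₀, ?_, ?_⟩
  · ext w : 1
    exact hPt w
  · refine JP_ne_zero e₀ fun ξ h1 h2 => ?_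
    have h3 := frame_ker e₀ (hL.sub _ hy) hAt
      (P := (e.symm : (Fin d → ℂ) →L[ℂ] (Fin d → ℂ)).comp P₀) hPt h1
    rw [← h3, h2, map_zero]

/-- The coefficients for the units of the fibre and of the family. -/
theorem LFam.lcoef_eq (hL : LFam E E' f S 𝒟) {a : Set X → ℤ} {W : Set Y}
    {u U : X → ℂ} {y : Y} (hyW : y ∈ W) (hU : IsUnitOn E f 𝒟 a W U) {c : ℂ} (hc : c ≠ 0)
    (hcu : ∀ z, f z = y → (∀ D ∈ 𝒟, z ∉ D) → u z = c * U z)
    {q : (Fin d → ℂ) → X} {v : Fin d → ℂ}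
    (hg : ∀ᶠ v in 𝓝 v, ContMDiffAt 𝓘(ℂ, Fin d → ℂ) 𝓘(ℂ, E) ω q v ∧ f (q v) = y ∧
      ∀ D ∈ 𝒟, q v ∉ D) (w : Fin d → ℂ) :
    fderiv ℂ (fun v => u (q v)) v w / u (q v) = fderiv ℂ (fun v => U (q v)) v w / U (q v) := by
  obtain ⟨h1, h2, h3⟩ := hg.self_of_nhds
  have h4 := hU.hol (fun D hD => (hL.prime D hD).1) (by rw [h2]; exact hyW) h3
  have h5 : DifferentiableAt ℂ (fun v => U (q v)) v :=
    ((slice_fderiv h1 h4.1).1).differentiableAt (by simp)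
  have h6 : (fun v => u (q v)) =ᶠ[𝓝 v] fun v => c * U (q v) := by
    filter_upwards [hg] with v hv
    exact hcu _ hv.2.1 hv.2.2
  have h7 := h6.fderiv_eq (𝕜 := ℂ)
  rw [fderiv_const_mul h5] at h7
  rw [h7, hcu _ h2 h3]
  show c * fderiv ℂ (fun v => U (q v)) v w / (c * U (q v)) = _
  rw [mul_div_mul_left _ _ hc]

/-- The forms `Θ 1 / Θ 0, …, Θ r / Θ 0` are independent along the fibre at `x`. -/
def RKAt (E E' : Type) [NormedAddCommGroup E] [NormedSpace ℂ E]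
    [NormedAddCommGroup E'] [NormedSpace ℂ E']
    {X Y : Type} [TopologicalSpace X] [ChartedSpace E X] [TopologicalSpace Y] [ChartedSpace E' Y]
    (f : X → Y) {r : ℕ} (Θ : Fin (r + 1) → X → ℂ) (x : X) : Prop :=
  (∀ᶠ z in 𝓝 x, Θ 0 z ≠ 0) ∧ (∀ s, HolV E (fun z => Θ s z / Θ 0 z) x) ∧
    ∀ c : Fin r → ℂ, (∀ ξ, dM E E' f x ξ = 0 →
      ∑ k, c k * dif E (fun z => Θ k.succ z / Θ 0 z) x ξ = 0) → ∀ k, c k = 0

end HasL

section Rk

variable {n p d r : ℕ} {X Y : Type} [TopologicalSpace X] [ChartedSpace (Cm n) X]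
  [IsManifold 𝓘(ℂ, Cm n) ω X] [TopologicalSpace Y] [ChartedSpace (Cm p) Y]
  [IsManifold 𝓘(ℂ, Cm p) ω Y] {f : X → Y} {S : Set Y} {𝒟 : Finset (Set X)}

/-- From the rank of the forms of the fibre to the rank of the forms of the family. -/
theorem LFam.rk_of (hL : LFam (Cm n) (Cm p) f S 𝒟) (e₀ : Cm n ≃L[ℂ] (Cm p × (Fin d → ℂ)))
    {a : Fin (r + 1) → Fin d → Set X → ℤ} {W : Fin (r + 1) → Fin d → Y → Set Y}
    {U : Fin (r + 1) → Fin d → Y → X → ℂ}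
    (hU : ∀ s b, ∀ y ∉ S, IsOpen (W s b y) ∧ y ∈ W s b y ∧
      IsUnitOn (Cm n) f 𝒟 (a s b) (W s b y) (U s b y))
    {y : Y} (hy : y ∉ S) (hrank : LRankAt (n := n) d f 𝒟 a y) :
    ∃ x₁, f x₁ = y ∧ (∀ D ∈ 𝒟, x₁ ∉ D) ∧
      RKAt (Cm n) (Cm p) f (fun s => theta (Cm n) (Cm p) f e₀ (U s)) x₁ := by
  classical
  have hf := hL.hol
  have h𝒟c : ∀ D ∈ 𝒟, IsClosed D := fun D hD => (hL.prime D hD).1
  obtain ⟨u, hu, q, v₀, hq, hfq, hq𝒟, hlc, hsurj⟩ := hrank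
  have hc : ∀ s b, ∃ c : ℂ, c ≠ 0 ∧ ∀ z, f z = y → (∀ D ∈ 𝒟, z ∉ D) →
      u s b z = c * U s b y z := fun s b =>
    hL.unique e₀ hy (hu s b) ((hU s b y hy).2.2.at (hU s b y hy).2.1)
  choose c hc0 hcu using hc
  have hqt : Tendsto q (𝓝 v₀) (𝓝 (q v₀)) := hq.continuousAt
  have hq' : ∀ᶠ v in 𝓝 v₀, ContMDiffAt 𝓘(ℂ, Cm d) 𝓘(ℂ, Cm n) ω q v :=
    (contMDiffAt_iff_contMDiffAt_nhds (by simp)).1 hq
  have hgood : ∀ᶠ v in 𝓝 v₀, ContMDiffAt 𝓘(ℂ, Cm d) 𝓘(ℂ, Cm n) ω q v ∧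
      f (q v) = y ∧ ∀ D ∈ 𝒟, q v ∉ D := by
    filter_upwards [hq', hfq, hqt.eventually (hL.off hq𝒟)] with v h1 h2 h3
    exact ⟨h1, h2, h3⟩
  set ℓ : Fin (r + 1) → Cm d → ℂ := fun s v => lcoef (fun b v => U s b y (q v)) v with hℓ
  have hℓu : ∀ᶠ v in 𝓝 v₀, ∀ s, lcoef (fun b v => u s b (q v)) v = ℓ s v := by
    filter_upwards [eventually_eventually_nhds.2 hgood] with v hv s
    show Matrix.det _ = Matrix.det _
    congr 1
    ext b k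
    exact hL.lcoef_eq (hU s b y hy).2.1 (hU s b y hy).2.2 (hc0 s b) (hcu s b) hv _
  have hfx₁ : f (q v₀) = y := hfq.self_of_nhds
  have hℓ0 : ℓ 0 v₀ ≠ 0 := by
    rw [← hℓu.self_of_nhds 0]
    exact hlc
  have hℓc : ContinuousAt (ℓ 0) v₀ := by
    have h2 : ∀ b, ContDiffAt ℂ ω (fun v => U 0 b y (q v)) v₀ := fun b =>
      (slice_fderiv hq ((hU 0 b y hy).2.2.hol h𝒟c
        (by rw [hfx₁]; exact (hU 0 b y hy).2.1) hq𝒟).1).1
    have h3 : ∀ b, U 0 b y (q v₀) ≠ 0 := fun b =>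
      ((hU 0 b y hy).2.2.hol h𝒟c (by rw [hfx₁]; exact (hU 0 b y hy).2.1) hq𝒟).2
    have h4 : ∀ b k, ContinuousAt (fun v => fderiv ℂ (fun v => U 0 b y (q v)) v
        (Pi.single k 1) / U 0 b y (q v)) v₀ := by
      intro b k
      have h5 : ContinuousAt (fderiv ℂ (fun v => U 0 b y (q v))) v₀ :=
        ((h2 b).fderiv_right (m := 0) (by simp)).continuousAt
      exact (h5.clm_apply continuousAt_const).div (h2 b).continuousAt (h3 b)
    have h5 : ContinuousAt (fun v => Matrix.of fun b k => fderiv ℂ (fun v => U 0 b y (q v)) v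
        (Pi.single k 1) / U 0 b y (q v)) v₀ :=
      continuousAt_pi.2 fun b => continuousAt_pi.2 fun k => h4 b k
    exact (Continuous.matrix_det (A := fun M : Matrix (Fin d) (Fin d) ℂ => M)
      continuous_id).continuousAt.comp h5
  have hval : ∀ᶠ v in 𝓝 v₀, ∃ J : ℂ, J ≠ 0 ∧ ∀ s,
      theta (Cm n) (Cm p) f e₀ (U s) (q v) = ℓ s v * J := by
    filter_upwards [eventually_eventually_nhds.2 hgood, hℓc.eventually_ne hℓ0] with v hv h2
    obtain ⟨h3, h4, h5⟩ := hv.self_of_nhds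
    have h6 : ∀ᶠ z in 𝓝 v, f (q z) = f (q v) := by
      filter_upwards [hv] with z hz
      rw [hz.2.1, h4]
    obtain ⟨P, hP, hP0⟩ := hL.exists_frame e₀ (a := a 0) (W := W 0) (U := U 0)
      (fun b y hy => hU 0 b y hy) h3 h6 h4 hy h5 h2
    refine ⟨_, hP0, fun s => ?_⟩
    rw [hL.theta_slice e₀ (a := a s) (W := W s) (U := U s) (fun b y hy => hU s b y hy) h3 h6 h4
      hy h5 hP, lrow_det]
  set x₁ := q v₀ with hx₁
  have hx₁S : f x₁ ∉ S := by rw [hfx₁]; exact hy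
  obtain ⟨J₁, hJ₁, hJe₁⟩ := hval.self_of_nhds
  have h2 : ∀ s, ∃ H : X → ℂ, HolV (Cm n) H x₁ ∧ ∀ᶠ z in 𝓝 x₁, (∀ D ∈ 𝒟, z ∉ D) →
      jac (Cm p) (chartAt (Cm p) (f x₁)) (f z) * theta (Cm n) (Cm p) f e₀ (U s) z *
        ∏ D ∈ 𝒟, (1 : ℂ) = H z * jac (Cm n) (chartAt (Cm n) x₁) z := fun s =>
    hL.theta_hol e₀ (a := a s) (W := W s) (U := U s) (fun b y hy => hU s b y hy) hx₁S
      (mem_chart_source _ x₁) (mem_chart_source _ (f x₁))
      fun D hD => localEq_one (h𝒟c D hD) (hq𝒟 D hD)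
  choose H hH hHe using h2
  have hjX : ∀ᶠ z in 𝓝 x₁, jac (Cm n) (chartAt (Cm n) x₁) z ≠ 0 := by
    filter_upwards [(chartAt (Cm n) x₁).open_source.mem_nhds (mem_chart_source _ x₁)]
      with z hz
    exact jac_chart_ne_zero hz
  have hjY : ∀ᶠ z in 𝓝 x₁, jac (Cm p) (chartAt (Cm p) (f x₁)) (f z) ≠ 0 := by
    filter_upwards [(hf x₁).continuousAt.eventually ((chartAt (Cm p) (f x₁)).open_source.mem_nhds
      (mem_chart_source _ (f x₁)))] with z hz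
    exact jac_chart_ne_zero hz
  have hH0 : H 0 x₁ ≠ 0 := by
    intro h0
    have h3 := (hHe 0).self_of_nhds hq𝒟
    rw [h0, zero_mul, Finset.prod_const_one, mul_one, hx₁, hJe₁ 0] at h3
    exact (mul_ne_zero hjY.self_of_nhds (mul_ne_zero hℓ0 hJ₁)) h3
  have hev : ∀ᶠ z in 𝓝 x₁, theta (Cm n) (Cm p) f e₀ (U 0) z ≠ 0 ∧
      ∀ s, theta (Cm n) (Cm p) f e₀ (U s) z /
        theta (Cm n) (Cm p) f e₀ (U 0) z = H s z / H 0 z := by
    filter_upwards [eventually_all.2 hHe, hjX, hjY, (hH 0).continuousAt.eventually_ne hH0,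
      hL.off hq𝒟] with z h3 h4 h5 h6 h7
    have h8 : ∀ s, theta (Cm n) (Cm p) f e₀ (U s) z =
        H s z * (jac (Cm n) (chartAt (Cm n) x₁) z /
          jac (Cm p) (chartAt (Cm p) (f x₁)) (f z)) := by
      intro s
      have h9 := h3 s h7
      rw [Finset.prod_const_one, mul_one] at h9
      rw [← mul_div_assoc, ← h9, mul_div_cancel_left₀ _ h5]
    have h9 : jac (Cm n) (chartAt (Cm n) x₁) z /
          jac (Cm p) (chartAt (Cm p) (f x₁)) (f z) ≠ 0 := div_ne_zero h4 h5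
    refine ⟨by rw [h8 0]; exact mul_ne_zero h6 h9, fun s => ?_⟩
    rw [h8 s, h8 0, mul_div_mul_right _ _ h9]
  have hratio : ∀ s, HolV (Cm n) (fun z => theta (Cm n) (Cm p) f e₀ (U s) z /
      theta (Cm n) (Cm p) f e₀ (U 0) z) x₁ := fun s =>
    ((hH s).div (hH 0) hH0).congr (hev.mono fun z hz => hz.2 s)
  refine ⟨x₁, hfx₁, hq𝒟, hev.mono fun z hz => hz.1, hratio, ?_⟩
  intro α hα k₀
  obtain ⟨η, hη⟩ := hsurj (Pi.single k₀ 1)
  have h3 := hα ((mfderiv 𝓘(ℂ, Cm d) 𝓘(ℂ, Cm n) q v₀ : Cm d →L[ℂ] Cm n) η)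
    (slice_ker hf hq (by filter_upwards [hfq] with v hv; rw [hv, hfx₁]) η)
  have h4 : ∀ k : Fin r, dif (Cm n) (fun z =>
      theta (Cm n) (Cm p) f e₀ (U k.succ) z /
        theta (Cm n) (Cm p) f e₀ (U 0) z) x₁
      ((mfderiv 𝓘(ℂ, Cm d) 𝓘(ℂ, Cm n) q v₀ : Cm d →L[ℂ] Cm n) η) =
      (Pi.single k₀ (1 : ℂ) : Fin r → ℂ) k := by
    intro k
    have h5 : (fun v => lcoef (fun b v => u k.succ b (q v)) v /
        lcoef (fun b v => u 0 b (q v)) v) =ᶠ[𝓝 v₀]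
        fun v => theta (Cm n) (Cm p) f e₀ (U k.succ) (q v) /
          theta (Cm n) (Cm p) f e₀ (U 0) (q v) := by
      filter_upwards [hval, hℓu] with v h6 h7
      obtain ⟨J, hJ, hJe⟩ := h6
      rw [hJe, hJe, mul_div_mul_right _ _ hJ, h7, h7]
    have h6 := (slice_fderiv hq (hratio k.succ)).2
    have h7 := h5.fderiv_eq (𝕜 := ℂ)
    rw [h6] at h7
    have h8 := congrFun hη k
    rw [← h8]
    exact (congrArg (fun L : Cm d →L[ℂ] ℂ => L η) h7).symm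
  rw [Finset.sum_congr rfl fun k _ => by rw [h4 k]] at h3
  simpa [Pi.single_apply] using h3

end Rk

/-- **B7** -/
theorem hasLStmt : HasLStmt := by
  intro p d r X Y _ _ _ _ _ _ _ _ 𝒯 f S 𝒟 a e₀ Δ hd hfc hS hfib h𝒟 hne hΔ0 hΔ1 hfam hbd y hy
    hrank
  classical
  have hL : LFam (Cm (p + d)) (Cm p) f S 𝒟 :=
    { hol := fun x => hfc.contMDiffAt
      closed := hS
      sub := hfib.submersive
      conn := fun y hy => (hfib.connected y hy).isPreconnected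
      cpt := fun y hy => hfib.proper {y} isCompact_singleton (by simpa using hy)
      prime := h𝒟
      not_sub := hne }
  have h1 : ∀ s b (y : Y), ∃ (W : Set Y) (U : X → ℂ), y ∉ S →
      IsOpen W ∧ y ∈ W ∧ IsUnitOn (Cm (p + d)) f 𝒟 (a s b) W U := by
    intro s b y
    by_cases hy : y ∉ S
    · obtain ⟨W, U, h⟩ := hfam s b y hy
      exact ⟨W, U, fun _ => h⟩
    · exact ⟨∅, fun _ => 0, fun h => absurd h hy⟩
  choose W U hU using h1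
  have hrel := fun s => hL.relForm e₀ (a := a s) (W := W s) (U := U s)
    (fun b y hy => hU s b y hy) (hbd s)
  obtain ⟨x₁, hfx₁, -, h2, h3, h4⟩ := hL.rk_of e₀ (W := W) (U := U)
    (fun s b y hy => hU s b y hy) hy hrank
  refine ⟨1, (𝒟 : Set (Set X)), kapL 𝒟, theta (Cm (p + d)) (Cm p) f e₀ (U 0),
    fun k => theta (Cm (p + d)) (Cm p) f e₀ (U k.succ), one_pos, 𝒟.finite_toSet,
    fun D hD => h𝒟 D (Finset.mem_coe.1 hD), hrel 0, fun k => hrel k.succ, ?_, x₁, hfx₁,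
    h2, fun k => h3 k.succ, h4⟩
  intro D
  unfold kapL
  by_cases hD : D ∈ 𝒟
  · rw [if_pos hD, hΔ1 D hD]
    norm_num
  · rw [if_neg hD, Nat.cast_zero]
    exact mul_nonneg (Nat.cast_nonneg _) (hΔ0 D)

end Vale.Agent.P281.H969.TL
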